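import Claimed.Agent.R322.Tube.Transfer

/-!
# The two measure estimates imported from AE, in geometric form (CO Section 3)

* `scalar_input` : CO Lemma 3.1 = AE Lemma 2.5 and its proof.
* `signed_excess` : CO Theorem 3.2 = AE Theorem 3.1 (curved form).

Balls are balls in the graph coordinate `y`.  Because the graph chart is only `(1+ε₀)`-isometric,
the outer radius is `5 l` (paper: `4 l` in the normalised chart) and a fixed constant `C` appears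
on the right of the signed estimate.

Only reference graphs with `K ≤ 1` are treated (all consumers have `K ∈ {0, 1}` or `K` small): for `K > 1` the dilation `X ↦ K X`
leads to the scale `K s`, which may exceed `1/2`.  Larger `K` are recovered by a larger unit `t` in `Tube/Units.lean`.
-/

set_option autoImplicit false

open scoped ENNReal ContDiff
open MeasureTheory

namespace Claimed.Agent.R322.Tube

variable {m n : ℕ}

/-- **CO Lemma 3.1 (scalar mass and selection of the integer).** -/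
theorem scalar_input (m n : ℕ) (hm : 1 ≤ m) (hn : 1 ≤ n) (C₀ c : ℝ) (hc : 1 < c) :
    ∃ Jsc J : ℕ, ∀ K : ℝ, K ≤ 1 → ∃ ε₀ h₀ εs C : ℝ, 0 < ε₀ ∧ 0 < h₀ ∧ 0 < εs ∧ 0 < C ∧
      ∀ N : NCyl m n, RefGraph J K ε₀ N.u → N.h ≤ h₀ →
      ∀ (x : E m) (s ε : ℝ), 0 < s → s ≤ 1 / 2 → Metric.closedBall x (c * s) ⊆ N.Ω →
        N.nu (Metric.ball x (c * s)) ≤ ENNReal.ofReal (C₀ * s ^ m) →
        (N.Dm + N.Lm) (Metric.ball x (c * s)) ≤ ENNReal.ofReal (ε * s ^ m) → 0 ≤ ε → ε ≤ εs →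
        ∃ q : ℕ,
          N.volS {y | y ∈ Metric.ball x ((1 + c) / 2 * s) ∧ N.cnt y ≠ q}
            ≤ ENNReal.ofReal (C * ε * s ^ m) ∧
          (∀ (η : E m → ℝ) (A : ℝ), ContDiff ℝ ∞ η →
            tsupport η ⊆ Metric.ball x ((1 + c) / 2 * s) →
            (∀ j : ℕ, j ≤ Jsc → ∀ y, s ^ j * ‖iteratedFDeriv ℝ j η y‖ ≤ A) →
            |∫ y, η y ∂N.nu - q * ∫ y, η y ∂N.volS| ≤ C * ε * s ^ m * A) ∧
          (q = N.Q →
            N.Mabs (Metric.ball x s) + N.volS {y | y ∈ Metric.ball x s ∧ N.cnt y ≠ N.Q}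
              ≤ ENNReal.ofReal C * (N.Dm + N.Lm) (Metric.ball x (c * s))) := by
  obtain ⟨ε₀, h₀, εs, C, hε₀, hh₀, hεs, hC, H⟩ := scalar_input_one m n hm hn C₀ c hc
  refine ⟨3, 5, fun K hK => ⟨ε₀, h₀, εs, C, hε₀, hh₀, hεs, hC,
    fun N hu hh x s ε hs hs2 hsub hnu hDL hε0 hε => ?_⟩⟩
  obtain ⟨q, h1, h2, h3⟩ := H N ⟨hu.smooth, hu.slope, fun j h2 hj y => (hu.bound j h2 hj y).trans hK⟩
    hh x s ε hs hs2 hsub hnu hDL hε0 hε
  exact ⟨q, h1, fun η A hη => h2 η A (contDiff_infty.1 hη 3), h3⟩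

/-- **CO Theorem 3.2 = AE Theorem 3.1 (signed excess), curved form.**
The rate `exp (-F_Q T)` is hidden in a function `ρ` which decays faster than every power of `T`
(the only property used in CO 4, CO 6 and AE 7.2). -/
theorem signed_excess (m n Q : ℕ) (hm : 1 ≤ m) (hn : 1 ≤ n) (hQ : 1 ≤ Q) (κ : ℝ) (hκ : 0 < κ) :
    ∃ J : ℕ, ∀ K : ℝ, K ≤ 1 → ∃ (ε₀ h₀ CQ T₀ : ℝ) (ρ : ℝ → ℝ), 0 < ε₀ ∧ 0 < h₀ ∧ 0 < CQ ∧
      (∀ T, 0 ≤ ρ T) ∧
      (∀ a : ℕ, Filter.Tendsto (fun T : ℝ => T ^ a * ρ T) Filter.atTop (nhds 0)) ∧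
      ∀ N : NCyl m n, N.Q = Q → RefGraph J K ε₀ N.u → N.h ≤ h₀ →
      ∀ (x : E m) (l T : ℝ), 0 < l → T₀ ≤ T → Metric.closedBall x (5 * l) ⊆ N.Ω →
        N.tau (Metric.ball x (5 * l)) ≤ ENNReal.ofReal (Real.exp (-T) * l ^ m) →
        l + N.supz (Metric.ball x (5 * l)) ≤ Real.exp (-(κ * T)) →
        ∀ w : E m → ℝ, (∀ y, 0 ≤ w y ∧ w y ≤ 1) → (∀ y y', |w y - w y'| ≤ l⁻¹ * ‖y - y'‖) →
          Function.support w ⊆ Metric.ball x l →
          2 * N.intM w - ∫ y, w y ∂N.Dm - CQ * ∫ y, w y ∂N.Lm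
            ≤ ρ T * Real.exp (-T) * l ^ m := by
  obtain ⟨ε₀, h₀, CQ, T₀, ρ, hε₀, hh₀, hCQ, hρ, hρ', H⟩ := signed_excess_one m n Q hm hn hQ κ hκ
  exact ⟨5, fun K hK => ⟨ε₀, h₀, CQ, T₀, ρ, hε₀, hh₀, hCQ, hρ, hρ', fun N hNQ hu =>
    H N hNQ ⟨hu.smooth, hu.slope, fun j h2 hj y => (hu.bound j h2 hj y).trans hK⟩⟩⟩

end Claimed.Agent.R322.Tube
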