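import Claimed.Agent.R322.Tube.Inputs
import Claimed.Agent.R322.Pack049
import Claimed.Agent.R322.Pack048
import Claimed.Agent.R322.Pack053

/-!
# The two imported estimates after a change of physical units

`signed_excess_units`, `scalar_abs_units`: the estimates of `Tube/Inputs.lean` after a dilation of
physical space by a factor `t` (CO Section 6 `d_i'`, AE Lemma 7.2 `λ₀`).  Measures `M`, `D` and
base balls stay in the current units; only the geometric error `Λ`, the bounds on the reference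
graph and the smallness condition are evaluated in the units dilated by `t`.
-/

set_option autoImplicit false

open scoped ENNReal ContDiff
open MeasureTheory

namespace Claimed.Agent.R322.Tube

variable {m n : ℕ}

theorem integral_dil {k : ℕ} (m : ℕ) (μ : Measure (E k)) {t : ℝ} (ht : 0 < t) (w : E k → ℝ) :
    ∫ y, w (t⁻¹ • y) ∂(cdil m t • μ.map (dilE k t ht.ne')) = t ^ m * ∫ y, w y ∂μ := by
  rw [integral_smul_measure, integral_map_equiv, cdil_toReal m ht]
  simp only [dilE_apply, smul_smul, inv_mul_cancel₀ ht.ne', one_smul, smul_eq_mul]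

theorem cdil_mul_ofReal (m : ℕ) {t : ℝ} (ht : 0 < t) (a l : ℝ) :
    cdil m t * ENNReal.ofReal (a * l ^ m) = ENNReal.ofReal (a * (t * l) ^ m) := by
  unfold cdil
  rw [← ENNReal.ofReal_mul (by positivity)]
  congr 1
  rw [mul_pow]
  ring

/-- the three measures on a dilated ball -/
theorem NCyl.dil_tau_ball (N : NCyl m n) {t : ℝ} (ht : 0 < t) (hU : UniqNear N.u N.h)
    (hM : MeasurableSet (Cyl N.u N.Ω N.h)) (x : E m) (r : ℝ) :
    (N.dil t ht hU).Mabs (Metric.ball (t • x) (t * r)) = cdil m t * N.Mabs (Metric.ball x r) ∧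
    (N.dil t ht hU).Dm (Metric.ball (t • x) (t * r)) = cdil m t * N.Dm (Metric.ball x r) ∧
    (N.dil t ht hU).Lm (Metric.ball (t • x) (t * r)) = cdil m t * N.LmU t (Metric.ball x r) ∧
    (N.dil t ht hU).nu (Metric.ball (t • x) (t * r)) = cdil m t * N.nu (Metric.ball x r) := by
  rw [← preimage_inv_smul_ball ht, N.dil_Mabs ht hU hM, N.dil_Dm ht hU hM, N.dil_Lm ht hU hM,
    N.dil_nu ht hU hM]
  exact ⟨smul_map_dilE_apply _ ht _ measurableSet_ball, smul_map_dilE_apply _ ht _ measurableSet_ball,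
    smul_map_dilE_apply _ ht _ measurableSet_ball, smul_map_dilE_apply _ ht _ measurableSet_ball⟩

/-- **signed excess in dilated units** (from `signed_excess` and the dilation rules). -/
theorem signed_excess_units (m n Q : ℕ) (hm : 1 ≤ m) (hn : 1 ≤ n) (hQ : 1 ≤ Q) (κ : ℝ)
    (hκ : 0 < κ) :
    ∃ J : ℕ, ∀ K : ℝ, K ≤ 1 → ∃ (ε₀ h₀ CQ T₀ : ℝ) (ρ : ℝ → ℝ), 0 < ε₀ ∧ 0 < h₀ ∧ 0 < CQ ∧
      (∀ T, 0 ≤ ρ T) ∧
      (∀ a : ℕ, Filter.Tendsto (fun T : ℝ => T ^ a * ρ T) Filter.atTop (nhds 0)) ∧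
      ∀ (N : NCyl m n) (t : ℝ), 0 < t → N.Q = Q → RefGraphU t J K ε₀ N.u → t * N.h ≤ h₀ →
      ∀ (x : E m) (l T : ℝ), 0 < l → T₀ ≤ T → Metric.closedBall x (5 * l) ⊆ N.Ω →
        (N.Mabs + N.Dm + N.LmU t) (Metric.ball x (5 * l)) ≤ ENNReal.ofReal (Real.exp (-T) * l ^ m) →
        t * (l + N.supz (Metric.ball x (5 * l))) ≤ Real.exp (-(κ * T)) →
        ∀ w : E m → ℝ, (∀ y, 0 ≤ w y ∧ w y ≤ 1) → (∀ y y', |w y - w y'| ≤ l⁻¹ * ‖y - y'‖) →
          Function.support w ⊆ Metric.ball x l →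
          2 * N.intM w - ∫ y, w y ∂N.Dm - CQ * ∫ y, w y ∂(N.LmU t)
            ≤ ρ T * Real.exp (-T) * l ^ m := by
  obtain ⟨J, H⟩ := signed_excess m n Q hm hn hQ κ hκ
  obtain ⟨h₁, hh₁, F⟩ := exists_cyl_facts m n
  refine ⟨max J 4, fun K hK1 => ?_⟩
  obtain ⟨ε₀, h₀, CQ, T₀, ρ, hε₀, hh₀, hCQ, hρ, hρl, H⟩ := H K hK1
  have hK : 0 < max K 1 := lt_max_of_lt_right one_pos
  refine ⟨min ε₀ (1 / 2), min h₀ (h₁ / max K 1), CQ, T₀, ρ, lt_min hε₀ (by norm_num),
    lt_min hh₀ (by positivity), hCQ, hρ, hρl, ?_⟩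
  intro N t ht hNQ hR hh x l T hl hT hball htau hsup w hw hlip hsupp
  obtain ⟨hU, hopen, -⟩ := F N t K _ _ ht hR (le_max_right _ _) (min_le_right _ _)
    (hh.trans (min_le_right _ _))
  have hM := hopen.measurableSet
  have hR0 := hR.dil ht (le_max_left J 4)
  have hR' : RefGraph J K ε₀ (dilU t N.u) :=
    ⟨hR0.smooth, fun y => (hR0.slope y).trans (min_le_left _ _), hR0.bound⟩
  have e5 : 5 * (t * l) = t * (5 * l) := by ring
  obtain ⟨b1, b2, b3, -⟩ := N.dil_tau_ball ht hU hM x (5 * l)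
  have key := H (N.dil t ht hU) hNQ hR' (hh.trans (min_le_left _ _)) (t • x) (t * l) T
    (by positivity) hT ?_ ?_ ?_ (fun y => w (t⁻¹ • y)) (fun y => hw _) ?_ ?_
  · rw [N.dil_intM ht hU hM, N.dil_Dm ht hU hM, N.dil_Lm ht hU hM, integral_dil m _ ht,
      integral_dil m _ ht, mul_pow] at key
    have htm : 0 < t ^ m := by positivity
    have key' : t ^ m * (2 * N.intM w - ∫ y, w y ∂N.Dm - CQ * ∫ y, w y ∂(N.LmU t))
        ≤ t ^ m * (ρ T * Real.exp (-T) * l ^ m) := by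
      calc _ = 2 * (t ^ m * N.intM w) - t ^ m * ∫ y, w y ∂N.Dm
            - CQ * (t ^ m * ∫ y, w y ∂(N.LmU t)) := by ring
        _ ≤ ρ T * Real.exp (-T) * (t ^ m * l ^ m) := key
        _ = _ := by ring
    exact le_of_mul_le_mul_left key' htm
  · rw [e5, ← preimage_inv_smul_closedBall ht]
    exact Set.preimage_mono hball
  · rw [e5]
    unfold NCyl.tau
    rw [Measure.add_apply, Measure.add_apply, b1, b2, b3, ← mul_add, ← mul_add,
      ← cdil_mul_ofReal m ht]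
    rw [Measure.add_apply, Measure.add_apply] at htau
    exact mul_le_mul_right htau _
  · rw [e5, ← preimage_inv_smul_ball ht, N.dil_supz ht hU, ← mul_add]
    exact hsup
  · intro y y'
    have := hlip (t⁻¹ • y) (t⁻¹ • y')
    rw [← smul_sub, norm_smul, Real.norm_of_nonneg (inv_nonneg.2 ht.le)] at this
    rw [mul_inv, mul_comm t⁻¹, mul_assoc]
    exact this
  · intro y hy
    rw [← preimage_inv_smul_ball ht]
    exact hsupp hy

/-! ### the scalar estimate -/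

theorem NCyl.volS_apply_le (N : NCyl m n) {Cv : ℝ} (hv : ∀ y, vdens (fderiv ℝ N.u y) ≤ Cv)
    {A : Set (E m)} (hA : MeasurableSet A) :
    N.volS A ≤ ENNReal.ofReal Cv * μH[(m : ℝ)] A := by
  unfold NCyl.volS
  rw [withDensity_apply _ hA]
  calc ∫⁻ y in A, ENNReal.ofReal (vdens (fderiv ℝ N.u y)) ∂(μH[(m : ℝ)]).restrict N.Ω
      ≤ ∫⁻ _y in A, ENNReal.ofReal Cv ∂(μH[(m : ℝ)]).restrict N.Ω :=
        lintegral_mono fun y => ENNReal.ofReal_le_ofReal (hv y)
    _ = ENNReal.ofReal Cv * ((μH[(m : ℝ)]).restrict N.Ω) A := by rw [setLIntegral_const]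
    _ ≤ ENNReal.ofReal Cv * μH[(m : ℝ)] A := mul_le_mul_right (Measure.restrict_apply_le _ _) _

theorem NCyl.le_volS_apply (N : NCyl m n) {A : Set (E m)} (hA : MeasurableSet A) (hAΩ : A ⊆ N.Ω) :
    μH[(m : ℝ)] A ≤ N.volS A := by
  unfold NCyl.volS
  rw [withDensity_apply _ hA, Measure.restrict_restrict hA, Set.inter_eq_left.2 hAΩ]
  calc μH[(m : ℝ)] A = ∫⁻ _y in A, 1 ∂μH[(m : ℝ)] := by rw [setLIntegral_one]
    _ ≤ ∫⁻ y in A, ENNReal.ofReal (vdens (fderiv ℝ N.u y)) ∂μH[(m : ℝ)] :=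
        lintegral_mono fun y => by
          rw [← ENNReal.ofReal_one]
          exact ENNReal.ofReal_le_ofReal (Base.Exit.one_le_vdens _)

theorem norm_iteratedFDeriv_comp_smul {k : ℕ} {f : E k → ℝ} (hf : ContDiff ℝ ∞ f) (c : ℝ) (j : ℕ)
    (y : E k) :
    ‖iteratedFDeriv ℝ j (fun z => f (c • z)) y‖ = |c| ^ j * ‖iteratedFDeriv ℝ j f (c • y)‖ := by
  have hj' : (j : WithTop ℕ∞) ≤ ((⊤ : ℕ∞) : WithTop ℕ∞) := by exact_mod_cast le_top
  have e : (fun z => f (c • z)) = f ∘ (c • ContinuousLinearMap.id ℝ (E k)) := by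
    funext y
    simp
  rw [e, ContinuousLinearMap.iteratedFDeriv_comp_right _ hf y hj']
  have e2 : (iteratedFDeriv ℝ j f ((c • ContinuousLinearMap.id ℝ (E k)) y)).compContinuousLinearMap
      (fun _ => c • ContinuousLinearMap.id ℝ (E k)) = c ^ j • iteratedFDeriv ℝ j f (c • y) := by
    ext v
    simp only [ContinuousMultilinearMap.compContinuousLinearMap_apply,
      smul_apply, ContinuousLinearMap.id_apply]
    rw [ContinuousMultilinearMap.map_smul_univ]
    simp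
  rw [e2, norm_smul, norm_pow, Real.norm_eq_abs]

/-- bump functions at all scales with scale invariant bounds. -/
theorem exists_scaled_bump (m : ℕ) (c : ℝ) (hc : 1 < c) (Jsc : ℕ) :
    ∃ A : ℝ, 0 ≤ A ∧ ∀ (x : E m) (s : ℝ), 0 < s → ∃ η : E m → ℝ, ContDiff ℝ ∞ η ∧
      tsupport η ⊆ Metric.ball x ((1 + c) / 2 * s) ∧ (∀ y, 0 ≤ η y ∧ η y ≤ 1) ∧
      (∀ y ∈ Metric.ball x s, η y = 1) ∧
      ∀ j : ℕ, j ≤ Jsc → ∀ y, s ^ j * ‖iteratedFDeriv ℝ j η y‖ ≤ A := by
  let η₀ : ContDiffBump (0 : E m) := ⟨1, (3 + c) / 4, one_pos, by linarith⟩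
  have hsm : ContDiff ℝ ∞ (η₀ : E m → ℝ) := η₀.contDiff
  have hb : ∀ j : ℕ, ∃ C, ∀ y, ‖iteratedFDeriv ℝ j (η₀ : E m → ℝ) y‖ ≤ C := fun j =>
    (hsm.continuous_iteratedFDeriv (m := j) (by exact_mod_cast le_top)).bounded_above_of_compact_support
      (η₀.hasCompactSupport.iteratedFDeriv j)
  choose C hC using hb
  have hC0 : ∀ j, 0 ≤ C j := fun j => (norm_nonneg _).trans (hC j 0)
  refine ⟨∑ j ∈ Finset.range (Jsc + 1), C j, Finset.sum_nonneg fun j _ => hC0 j, fun x s hs => ?_⟩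
  refine ⟨fun y => η₀ (s⁻¹ • (y - x)), hsm.comp ((contDiff_id.sub contDiff_const).const_smul s⁻¹),
    ?_, fun y => ⟨η₀.nonneg, η₀.le_one⟩, fun y hy => ?_, fun j hj y => ?_⟩
  · have h1 : Function.support (fun y => η₀ (s⁻¹ • (y - x))) ⊆ Metric.closedBall x ((3 + c) / 4 * s) := by
      intro y hy
      have h2 : s⁻¹ • (y - x) ∈ Function.support (η₀ : E m → ℝ) := hy
      rw [η₀.support_eq, mem_ball_zero_iff, norm_smul, Real.norm_of_nonneg (inv_nonneg.2 hs.le)] at h2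
      rw [mem_closedBall_iff_norm]
      have h3 : s⁻¹ * ‖y - x‖ < (3 + c) / 4 := h2
      rw [inv_mul_lt_iff₀ hs] at h3
      linarith
    refine (closure_minimal h1 Metric.isClosed_closedBall).trans (Metric.closedBall_subset_ball ?_)
    exact mul_lt_mul_of_pos_right (by linarith) hs
  · refine η₀.one_of_mem_closedBall ?_
    rw [mem_closedBall_zero_iff, norm_smul, Real.norm_of_nonneg (inv_nonneg.2 hs.le)]
    have h3 : ‖y - x‖ < s := mem_ball_iff_norm.1 hy
    show s⁻¹ * ‖y - x‖ ≤ 1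
    rw [inv_mul_le_iff₀ hs]
    linarith
  · have e := iteratedFDeriv_comp_sub (𝕜 := ℝ) (f := fun z => η₀ (s⁻¹ • z)) j x y
    rw [e, norm_iteratedFDeriv_comp_smul hsm, abs_of_pos (inv_pos.2 hs), ← mul_assoc, ← mul_pow,
      mul_inv_cancel₀ hs.ne', one_pow, one_mul]
    exact (hC j _).trans (Finset.single_le_sum (f := C) (fun i _ => hC0 i)
      (Finset.mem_range.2 (by omega)))

theorem RefGraph.toU {u : E m → E n} {J : ℕ} {K ε : ℝ} (h : RefGraph J K ε u) :
    RefGraphU 1 J K ε u :=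
  ⟨h.smooth, h.slope, fun j h2 hj y => by rw [one_pow, mul_one]; exact h.bound j h2 hj y⟩

/-- the integer of `scalar_input` is `Q` if `|M_Q|` is small. -/
theorem scalar_q_eq {kp sm C εs A Inu Ivol Mb : ℝ} {q Q : ℕ} (hkp : 0 < kp) (hsm : 0 < sm)
    (hCA : 0 ≤ C * A)
    (hε : εs ≤ kp / (2 * (C * A + 1))) (h1 : |Inu - q * Ivol| ≤ C * εs * sm * A)
    (h2 : |Inu - Q * Ivol| ≤ Mb) (hMb : Mb ≤ εs * sm) (hI : kp * sm ≤ Ivol) : q = Q := by
  have h3 : |(q : ℝ) - Q| * Ivol ≤ εs * (C * A + 1) * sm := by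
    have hI0 : 0 ≤ Ivol := le_trans (by positivity) hI
    rw [← abs_of_nonneg hI0, ← abs_mul]
    have e : ((q : ℝ) - Q) * Ivol = (Inu - Q * Ivol) - (Inu - q * Ivol) := by ring
    rw [e]
    calc |(Inu - Q * Ivol) - (Inu - q * Ivol)| ≤ |Inu - Q * Ivol| + |Inu - q * Ivol| := abs_sub _ _
      _ ≤ εs * sm + C * εs * sm * A := add_le_add (h2.trans hMb) h1
      _ = εs * (C * A + 1) * sm := by ring
  have h4 : εs * (C * A + 1) ≤ kp / 2 := by
    rw [le_div_iff₀ (by positivity)] at hε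
    linarith
  have h5 : |(q : ℝ) - Q| * (kp * sm) ≤ kp / 2 * sm :=
    (mul_le_mul_of_nonneg_left hI (abs_nonneg _)).trans
      (h3.trans (mul_le_mul_of_nonneg_right h4 hsm.le))
  have h6 : |(q : ℝ) - Q| ≤ 1 / 2 := by
    have : |(q : ℝ) - Q| * (kp * sm) ≤ 1 / 2 * (kp * sm) := by linarith
    exact le_of_mul_le_mul_right this (by positivity)
  have h7 : |((q : ℤ) - (Q : ℤ) : ℤ)| < 1 := by
    have : ((|((q : ℤ) - (Q : ℤ) : ℤ)| : ℤ) : ℝ) < 1 := by
      push_cast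
      linarith
    exact_mod_cast this
  have h8 : ((q : ℤ) - (Q : ℤ) : ℤ) = 0 := Int.abs_lt_one_iff.1 h7
  omega

/-- the scalar estimate at unit scale, with the integer identified. -/
theorem scalar_abs_one (m n : ℕ) (hm : 1 ≤ m) (hn : 1 ≤ n) (Q : ℕ) (c : ℝ) (hc : 1 < c) :
    ∃ J : ℕ, ∀ K : ℝ, K ≤ 1 → ∃ ε₀ h₀ εs C : ℝ, 0 < ε₀ ∧ 0 < h₀ ∧ 0 < εs ∧ 0 < C ∧
      ∀ (N : NCyl m n), N.Q = Q → RefGraph J K ε₀ N.u → N.h ≤ h₀ →
      ∀ (x : E m) (s : ℝ), 0 < s → s ≤ 1 / 2 → Metric.closedBall x (c * s) ⊆ N.Ω →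
        (N.Mabs + N.Dm + N.Lm) (Metric.ball x (c * s)) ≤ ENNReal.ofReal (εs * s ^ m) →
        N.Mabs (Metric.ball x s) ≤ ENNReal.ofReal C * (N.Dm + N.Lm) (Metric.ball x (c * s)) := by
  obtain ⟨Cv, hCv, hv⟩ := Lin.exists_vdens_bound m n
  obtain ⟨Jsc, J, H⟩ := scalar_input m n hm hn (Q * (Cv * (kap m * c ^ m)) + 1) c hc
  obtain ⟨A, hA, B⟩ := exists_scaled_bump m c hc Jsc
  obtain ⟨h₁, hh₁, F⟩ := exists_cyl_facts m n
  refine ⟨max J 4, fun K hK1 => ?_⟩
  obtain ⟨ε₀, h₀, εs, C, hε₀, hh₀, hεs, hC, H⟩ := H K hK1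
  have hK : 0 < max K 1 := lt_max_of_lt_right one_pos
  have hkap := kap_pos m
  have hCA : 0 ≤ C * A := by positivity
  obtain ⟨ε', hε'd⟩ : ∃ ε', ε' = min (min εs 1) (kap m / (2 * (C * A + 1))) := ⟨_, rfl⟩
  have hε'0 : 0 < ε' := by
    rw [hε'd]
    exact lt_min (lt_min hεs one_pos) (by positivity)
  have hε'1 : ε' ≤ εs := by
    rw [hε'd]
    exact (min_le_left _ _).trans (min_le_left _ _)
  have hε'2 : ε' ≤ 1 := by
    rw [hε'd]
    exact (min_le_left _ _).trans (min_le_right _ _)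
  have hε'3 : ε' ≤ kap m / (2 * (C * A + 1)) := by
    rw [hε'd]
    exact min_le_right _ _
  refine ⟨min ε₀ (1 / 2), min h₀ (h₁ / max K 1), ε', C, lt_min hε₀ (by norm_num),
    lt_min hh₀ (by positivity), hε'0, hC, ?_⟩
  intro N hNQ hR hh x s hs hs2 hball hsmall
  obtain ⟨-, -, hfin⟩ := F N 1 K _ _ one_pos hR.toU (le_max_right _ _) (min_le_right _ _)
    (by rw [one_mul]; exact hh.trans (min_le_right _ _))
  have hR' : RefGraph J K ε₀ N.u :=
    ⟨hR.smooth.of_le (by exact_mod_cast le_max_left _ _),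
      fun y => (hR.slope y).trans (min_le_left _ _),
      fun j h2 hj y => hR.bound j h2 (hj.trans (le_max_left _ _)) y⟩
  have hcs : 0 < c * s := by positivity
  have hsm : 0 < s ^ m := pow_pos hs m
  have hBΩ : Metric.ball x (c * s) ⊆ N.Ω := Metric.ball_subset_closedBall.trans hball
  have hnuB : N.nu (Metric.ball x (c * s)) < ⊤ :=
    (measure_mono Metric.ball_subset_closedBall).trans_lt (hfin _ (isCompact_closedBall _ _) hball)
  have hvd : ∀ y, vdens (fderiv ℝ N.u y) ≤ Cv := fun y =>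
    hv _ ((hR.slope y).trans ((min_le_right _ _).trans (by norm_num)))
  have hvolB : N.volS (Metric.ball x (c * s)) ≤ ENNReal.ofReal (Cv * (kap m * (c * s) ^ m)) := by
    refine (N.volS_apply_le hvd measurableSet_ball).trans ?_
    rw [hausdorff_ball m x hcs, ← ENNReal.ofReal_mul hCv.le]
  rw [Measure.add_apply, Measure.add_apply] at hsmall
  have hMB : N.Mabs (Metric.ball x (c * s)) ≤ ENNReal.ofReal (ε' * s ^ m) :=
    (le_self_add.trans le_self_add).trans hsmall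
  have hDL : (N.Dm + N.Lm) (Metric.ball x (c * s)) ≤ ENNReal.ofReal (ε' * s ^ m) := by
    rw [Measure.add_apply]
    refine le_trans ?_ hsmall
    rw [add_assoc]
    exact le_add_self
  obtain ⟨η, hη1, hη2, hη3, hη4, hη5⟩ := B x s hs
  have hηsupp : ∀ y ∉ Metric.ball x (c * s), η y = 0 := by
    intro y hy
    by_contra h0
    have h1 : y ∈ tsupport η := subset_tsupport _ h0
    exact hy (Metric.ball_subset_ball (by nlinarith) (hη2 h1))
  obtain ⟨i1, i2⟩ := intM_le N η (Metric.ball x (c * s)) 1 hη1.continuous.measurable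
    measurableSet_ball hBΩ hηsupp (fun y => by rw [abs_of_nonneg (hη3 y).1]; exact (hη3 y).2) hnuB
    (hvolB.trans_lt ENNReal.ofReal_lt_top)
  have hnu : N.nu (Metric.ball x (c * s))
      ≤ ENNReal.ofReal ((Q * (Cv * (kap m * c ^ m)) + 1) * s ^ m) := by
    refine i2.trans ?_
    calc (N.Q : ℝ≥0∞) * N.volS (Metric.ball x (c * s)) + N.Mabs (Metric.ball x (c * s))
        ≤ (N.Q : ℝ≥0∞) * ENNReal.ofReal (Cv * (kap m * (c * s) ^ m)) + ENNReal.ofReal (ε' * s ^ m) :=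
          add_le_add (mul_le_mul_right hvolB _) hMB
      _ = ENNReal.ofReal (Q * (Cv * (kap m * (c * s) ^ m)) + ε' * s ^ m) := by
          rw [hNQ, ← ENNReal.ofReal_natCast, ← ENNReal.ofReal_mul (Nat.cast_nonneg _),
            ← ENNReal.ofReal_add (by positivity) (by positivity)]
      _ ≤ _ := ENNReal.ofReal_le_ofReal (by
          rw [mul_pow]
          nlinarith)
  obtain ⟨q, -, q2, q3⟩ := H N hR' (hh.trans (min_le_left _ _)) x s ε' hs hs2 hball hnu hDL hε'0.le hε'1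
  have hq : q = N.Q := by
    have t1 := q2 η A hη1 hη2 hη5
    have hI : kap m * s ^ m ≤ ∫ y, η y ∂N.volS := by
      rw [integral_eq_lintegral_of_nonneg_ae (Filter.Eventually.of_forall fun y => (hη3 y).1)
        hη1.continuous.aestronglyMeasurable]
      have l1 : ENNReal.ofReal (kap m * s ^ m) ≤ ∫⁻ y, ENNReal.ofReal (η y) ∂N.volS := by
        calc ENNReal.ofReal (kap m * s ^ m) = μH[(m : ℝ)] (Metric.ball x s) :=
              (hausdorff_ball m x hs).symm
          _ ≤ N.volS (Metric.ball x s) := N.le_volS_apply measurableSet_ball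
              ((Metric.ball_subset_ball (by nlinarith)).trans hBΩ)
          _ = ∫⁻ _y in Metric.ball x s, 1 ∂N.volS := by rw [setLIntegral_one]
          _ = ∫⁻ y in Metric.ball x s, ENNReal.ofReal (η y) ∂N.volS :=
              setLIntegral_congr_fun measurableSet_ball
                (fun y hy => by rw [hη4 y hy, ENNReal.ofReal_one])
          _ ≤ ∫⁻ y, ENNReal.ofReal (η y) ∂N.volS := setLIntegral_le_lintegral _ _
      have l2 : ∫⁻ y, ENNReal.ofReal (η y) ∂N.volS ≠ ⊤ := by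
        refine ne_top_of_le_ne_top (hvolB.trans_lt ENNReal.ofReal_lt_top).ne ?_
        calc ∫⁻ y, ENNReal.ofReal (η y) ∂N.volS
            ≤ ∫⁻ y, (Metric.ball x (c * s)).indicator 1 y ∂N.volS := lintegral_mono fun y => by
              by_cases hy : y ∈ Metric.ball x (c * s)
              · rw [Set.indicator_of_mem hy]
                exact ENNReal.ofReal_le_one.2 (hη3 y).2
              · rw [hηsupp y hy]
                simp
          _ = N.volS (Metric.ball x (c * s)) := by rw [lintegral_indicator_one measurableSet_ball]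
      exact (ENNReal.ofReal_le_iff_le_toReal l2).1 l1
    refine scalar_q_eq hkap hsm hCA hε'3 t1 i1 ?_ hI
    rw [one_mul]
    exact ENNReal.toReal_le_of_le_ofReal (by positivity) hMB
  exact le_self_add.trans (q3 hq)

/-- **scalar estimate in dilated units**, only the total variation conclusion with the integer
identified by smallness of `|M_Q|` on the large ball is recorded here. -/
theorem scalar_abs_units (m n : ℕ) (hm : 1 ≤ m) (hn : 1 ≤ n) (Q : ℕ) (c : ℝ) (hc : 1 < c) :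
    ∃ J : ℕ, ∀ K : ℝ, K ≤ 1 → ∃ ε₀ h₀ εs C : ℝ, 0 < ε₀ ∧ 0 < h₀ ∧ 0 < εs ∧ 0 < C ∧
      ∀ (N : NCyl m n) (t : ℝ), 0 < t → N.Q = Q → RefGraphU t J K ε₀ N.u → t * N.h ≤ h₀ →
      ∀ (x : E m) (s : ℝ), 0 < s → t * s ≤ 1 / 2 → Metric.closedBall x (c * s) ⊆ N.Ω →
        (N.Mabs + N.Dm + N.LmU t) (Metric.ball x (c * s)) ≤ ENNReal.ofReal (εs * s ^ m) →
        N.Mabs (Metric.ball x s) ≤ ENNReal.ofReal C * (N.Dm + N.LmU t) (Metric.ball x (c * s)) := by
  obtain ⟨J, H⟩ := scalar_abs_one m n hm hn Q c hc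
  obtain ⟨h₁, hh₁, F⟩ := exists_cyl_facts m n
  refine ⟨max J 4, fun K hK1 => ?_⟩
  obtain ⟨ε₀, h₀, εs, C, hε₀, hh₀, hεs, hC, H⟩ := H K hK1
  have hK : 0 < max K 1 := lt_max_of_lt_right one_pos
  refine ⟨min ε₀ (1 / 2), min h₀ (h₁ / max K 1), εs, C, lt_min hε₀ (by norm_num),
    lt_min hh₀ (by positivity), hεs, hC, ?_⟩
  intro N t ht hNQ hR hh x s hs hts hball hsmall
  obtain ⟨hU, hopen, -⟩ := F N t K _ _ ht hR (le_max_right _ _) (min_le_right _ _)
    (hh.trans (min_le_right _ _))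
  have hM := hopen.measurableSet
  have hR0 := hR.dil ht (le_max_left J 4)
  have hR' : RefGraph J K ε₀ (dilU t N.u) :=
    ⟨hR0.smooth, fun y => (hR0.slope y).trans (min_le_left _ _), hR0.bound⟩
  have ec : c * (t * s) = t * (c * s) := by ring
  obtain ⟨a1, -, -, -⟩ := N.dil_tau_ball ht hU hM x s
  obtain ⟨b1, b2, b3, -⟩ := N.dil_tau_ball ht hU hM x (c * s)
  have key := H (N.dil t ht hU) hNQ hR' (hh.trans (min_le_left _ _)) (t • x) (t * s)
    (by positivity) hts ?_ ?_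
  · rw [ec, Measure.add_apply, a1, b2, b3, ← mul_add, ← mul_assoc, mul_comm (ENNReal.ofReal C),
      mul_assoc] at key
    rw [Measure.add_apply]
    exact (ENNReal.mul_le_mul_iff_right (cdil_ne_zero m ht) (cdil_ne_top m t)).1 key
  · rw [ec, ← preimage_inv_smul_closedBall ht]
    exact Set.preimage_mono hball
  · rw [ec, Measure.add_apply, Measure.add_apply, b1, b2, b3, ← mul_add, ← mul_add,
      ← cdil_mul_ofReal m ht]
    rw [Measure.add_apply, Measure.add_apply] at hsmall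
    exact mul_le_mul_right hsmall _

end Claimed.Agent.R322.Tube
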