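import Claimed.Agent.R322.Pack017
import Claimed.Agent.R322.Pack049
import Claimed.Agent.R322.Pack043
import Claimed.Agent.R322.Pack018
import Claimed.Agent.R322.Tube.Cell.Stat
import Claimed.Agent.R322.Tube.Cell.Count
import Claimed.Agent.R322.Tube.Cell.Err

/-!
# The sheeted system of a cell is valid (leaves V1-V10, pointwise identities, glue)

All derivations are in the header of `Tube/Inst.lean`.  Every leaf has the same shape: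
constants `ε₀ h₀ Cg₀` depending on `m n ρm`, then the fields of `Sx.Sys.Valid` verbatim for
`S = N.sysOf x₀ l ρ Cg`.  `CellHyp` is monotone in `ε₀, h₀` (`CellHyp.mono`), so the glue takes minima.

`CellHyp`, `CellHyp.mono` now live in `Tube/Cell/Ctx.lean`.  SHARED CONTEXT (helper121): `exists_cellCtx` turns `CellHyp` into
`CellCtx N x₀ l ρ h₀` (chart_facts + frame_iso + cyl_carrier for this cell, constants merged); `Tube/Cell/Basic.lean` has the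
consequences: `CellCtx.good_tub/good_chart/good_npr/good_zz/good_norm_zz(_le)`, `cellZ_le/lt`, `isOpen_cellO`, `ae_good`,
`sys_μ`, `sys_μ_apply`, `lintegral_sys`, `integral_sys`, `ae_sys_good`, `ae_sys_of`, `norm_nuF`, `norm_tauF`, `bco_bpt`, ...
-/

set_option autoImplicit false

open scoped ENNReal NNReal InnerProductSpace
open MeasureTheory ContinuousLinearMap Set Metric

namespace Claimed.Agent.R322.Tube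


variable {m n : ℕ}

/- `hfield`, `vfield` now live in `Tube/Cell/Ctx.lean` (so that proof files imported here can use them). -/

/-- [P-H] pointwise trace identity for the horizontal test field. -/
theorem horiz_pointwise (m n : ℕ) : ∃ ε₀ h₀ : ℝ, 0 < ε₀ ∧ 0 < h₀ ∧
    ∀ (N : NCyl m n) (x₀ : E m) (l : ℝ), GeoS 1 ε₀ N.u → 0 < l →
    ∀ X : E m × E n → E m, ContDiff ℝ 1 X →
      ContDiffOn ℝ 1 (hfield N x₀ l X) (Tub N.u h₀) ∧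
      ∀ X' ∈ Tub N.u h₀,
        tdiv (N.W.P X') (fderiv ℝ (hfield N x₀ l X) X')
          = (Sx.tr (Sx.D1 X (chart N.u x₀ l X'))
              + ∑ a : Fin m, divS N.u (N.cfield x₀ l a) (npr N.u X') * (X (chart N.u x₀ l X')) a
              - Sx.tr (N.Bg x₀ l (chart N.u x₀ l X') ∘L Sx.D1 X (chart N.u x₀ l X'))
              + Sx.tr (Sx.D2 X (chart N.u x₀ l X') ∘L N.Pvhg x₀ l (chart N.u x₀ l X')))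
            - (Sx.tr (N.E1g x₀ l (chart N.u x₀ l X') ∘L Sx.D1 X (chart N.u x₀ l X'))
              + ⟪N.E2g x₀ l (chart N.u x₀ l X'), X (chart N.u x₀ l X')⟫_ℝ
              + Sx.tr (Sx.D2 X (chart N.u x₀ l X') ∘L N.E3g x₀ l (chart N.u x₀ l X'))) :=
  pw_horiz m n

/-- [P-N] pointwise trace identity for the normal test field. -/
theorem normal_pointwise (m n : ℕ) : ∃ ε₀ h₀ : ℝ, 0 < ε₀ ∧ 0 < h₀ ∧
    ∀ (N : NCyl m n) (x₀ : E m) (l : ℝ), GeoS 1 ε₀ N.u → 0 < l →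
    ∀ v : E m × E n → E n, ContDiff ℝ 1 v →
      ContDiffOn ℝ 1 (vfield N x₀ l v) (Tub N.u h₀) ∧
      ∀ X' ∈ Tub N.u h₀,
        tdiv (N.W.P X') (fderiv ℝ (vfield N x₀ l v) X')
          = (Sx.tr (N.Pvvg x₀ l (chart N.u x₀ l X') ∘L Sx.D2 v (chart N.u x₀ l X'))
              + Sx.tr ((N.Pvhg x₀ l (chart N.u x₀ l X')).adjoint ∘L Sx.D1 v (chart N.u x₀ l X')))
            - (Sx.tr (N.E4g x₀ l (chart N.u x₀ l X') ∘L Sx.D2 v (chart N.u x₀ l X'))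
              + ⟪N.E5g x₀ l (chart N.u x₀ l X'), v (chart N.u x₀ l X')⟫_ℝ
              + Sx.tr ((N.E6g x₀ l (chart N.u x₀ l X')).adjoint ∘L Sx.D1 v (chart N.u x₀ l X'))) :=
  pw_normal m n

/-- [V1] domain, concentration, finiteness, properness (`Tube.cyl_carrier`, `chart_facts`; heights `≤ Z/l`). -/
theorem v_dom (m n : ℕ) (hm : 1 ≤ m) (ρm : ℝ) : ∃ ε₀ h₀ Cg₀ : ℝ, 0 < ε₀ ∧ 0 < h₀ ∧ 1 ≤ Cg₀ ∧
    ∀ (N : NCyl m n) (x₀ : E m) (l ρ Cg : ℝ), CellHyp N x₀ l ρ ε₀ h₀ → ρ ≤ ρm → Cg₀ ≤ Cg →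
    ∀ S : Sx.Sys m n, S = N.sysOf x₀ l ρ Cg →
    (IsOpen S.Ω) ∧
    (S.μ (S.Ω ×ˢ (univ : Set (E n)))ᶜ = 0) ∧
    (∀ K : Set (E m), IsCompact K → K ⊆ S.Ω → S.μ (K ×ˢ (univ : Set (E n))) < ∞) ∧
    (∀ K : Set (E m), IsCompact K → K ⊆ S.Ω → ∃ H : ℝ, S.μ (K ×ˢ {ζ : E n | H < ‖ζ‖}) = 0) := by
  obtain ⟨ε₀, h₀, hε, hh, H⟩ := exists_cellCtx m n
  refine ⟨ε₀, h₀, 1, hε, hh, le_rfl, fun N x₀ l ρ Cg hc _ _ S hS => ?_⟩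
  subst hS
  have C := H N x₀ l ρ hc
  exact ⟨isOpen_ball, C.conc Cg, fun K hK hKΩ => C.finite_mass Cg K hK hKΩ,
    fun K _ _ => C.proper Cg K⟩

/-- [V2] measurability of all fields (`N.W.P_meas`, continuity of `unchart`, frames, `Jz`, `Kz` on the good region; the good region is measurable; `measurable_fderiv`-type lemmas for the two `tdiv` fields or continuity of the derivative on the tube). -/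
theorem v_meas (m n : ℕ) (hm : 1 ≤ m) (ρm : ℝ) : ∃ ε₀ h₀ Cg₀ : ℝ, 0 < ε₀ ∧ 0 < h₀ ∧ 1 ≤ Cg₀ ∧
    ∀ (N : NCyl m n) (x₀ : E m) (l ρ Cg : ℝ), CellHyp N x₀ l ρ ε₀ h₀ → ρ ≤ ρm → Cg₀ ≤ Cg →
    ∀ S : Sx.Sys m n, S = N.sysOf x₀ l ρ Cg →
    (Measurable S.B) ∧
    (Measurable S.Pvh) ∧
    (Measurable S.Pvv) ∧
    (Measurable S.lam) ∧
    (Measurable S.Jpi) ∧
    (Measurable S.E1) ∧
    (Measurable S.E2) ∧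
    (Measurable S.E3) ∧
    (Measurable S.E4) ∧
    (Measurable S.E5) ∧
    (Measurable S.E6) := by
  obtain ⟨ε₀, h₀, hε, hh, H⟩ := exists_cellCtx m n
  exact ⟨ε₀, h₀, 1, hε, hh, le_rfl, fun N x₀ l ρ Cg hc _ _ S hS =>
    (H N x₀ l ρ hc).meas Cg S hS⟩

/-- [V3] blocks of an orthogonal projection in the orthonormal frame `(τ, ν)` (`frame_iso`, `IsProj`); pure linear algebra. -/
theorem v_blocks (m n : ℕ) (hm : 1 ≤ m) (ρm : ℝ) : ∃ ε₀ h₀ Cg₀ : ℝ, 0 < ε₀ ∧ 0 < h₀ ∧ 1 ≤ Cg₀ ∧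
    ∀ (N : NCyl m n) (x₀ : E m) (l ρ Cg : ℝ), CellHyp N x₀ l ρ ε₀ h₀ → ρ ≤ ρm → Cg₀ ≤ Cg →
    ∀ S : Sx.Sys m n, S = N.sysOf x₀ l ρ Cg →
    (∀ q u v, ⟪S.B q u, v⟫_ℝ = ⟪u, S.B q v⟫_ℝ) ∧
    (∀ q u, 0 ≤ ⟪S.B q u, u⟫_ℝ) ∧
    (∀ q u, ⟪S.B q u, u⟫_ℝ ≤ ‖u‖ ^ 2) ∧
    (∀ q ξ η, ⟪S.Pvv q ξ, η⟫_ℝ = ⟪ξ, S.Pvv q η⟫_ℝ) ∧
    (∀ q ξ, 0 ≤ ⟪S.Pvv q ξ, ξ⟫_ℝ) ∧
    (∀ q ξ, ⟪S.Pvv q ξ, ξ⟫_ℝ ≤ ‖ξ‖ ^ 2) ∧
    (∀ q u v, ⟪S.Pvh q u, S.Pvh q v⟫_ℝ = ⟪S.B q u, v⟫_ℝ - ⟪S.B q u, S.B q v⟫_ℝ) ∧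
    (∀ q ξ η, ⟪(S.Pvh q).adjoint ξ, (S.Pvh q).adjoint η⟫_ℝ
        = ⟪S.Pvv q ξ, η⟫_ℝ - ⟪S.Pvv q ξ, S.Pvv q η⟫_ℝ) ∧
    (∀ q u, S.Pvv q (S.Pvh q u) = S.Pvh q (S.B q u)) ∧
    (∀ q, Sx.tr (S.B q) = Sx.tr (S.Pvv q)) := by
  obtain ⟨ε₀, h₀, hε, hh, H⟩ := exists_cellCtx m n
  exact ⟨ε₀, h₀, 1, hε, hh, le_rfl, fun N x₀ l ρ Cg hc _ _ S hS =>
    (H N x₀ l ρ hc).blocks Cg S hS⟩

/-- [V4] geometric error density and volume density (`|H_S|, |∇^⊥ H_S| ≤ C`; `ag = 1 + χ (√g(y)/√g(x₀) - 1)`, chain rule, `|D^j| ≤ C l`). -/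
theorem v_lam_a (m n : ℕ) (hm : 1 ≤ m) (ρm : ℝ) : ∃ ε₀ h₀ Cg₀ : ℝ, 0 < ε₀ ∧ 0 < h₀ ∧ 1 ≤ Cg₀ ∧
    ∀ (N : NCyl m n) (x₀ : E m) (l ρ Cg : ℝ), CellHyp N x₀ l ρ ε₀ h₀ → ρ ≤ ρm → Cg₀ ≤ Cg →
    ∀ S : Sx.Sys m n, S = N.sysOf x₀ l ρ Cg →
    (∀ q, 0 ≤ S.lam q) ∧
    (∀ q, S.lam q ≤ S.Cg) ∧
    (ContDiff ℝ 4 S.a) ∧
    (∀ y, |S.a y - 1| ≤ S.Cg * S.γ) ∧
    (∀ y, 1 / 2 ≤ S.a y) ∧
    (∀ y, S.a y ≤ 2) ∧
    (∀ (j : ℕ), 1 ≤ j → j ≤ 4 → ∀ y, ‖iteratedFDeriv ℝ j S.a y‖ ≤ S.Cg * S.γ) := by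
  obtain ⟨ε₀, Cg₀, hε, hC, H⟩ := v_lam_a_aux m n ρm
  refine ⟨ε₀, 1, Cg₀, hε, one_pos, hC, fun N x₀ l ρ Cg hc hρ hCg S hS => ?_⟩
  subst hS
  exact H N x₀ l ρ Cg hc.geo hc.l_pos hc.one_le_ρ hc.gam_le (v4_cellZ_nonneg N x₀ l ρ) hρ hCg

/-- [V5] projection Jacobian (`Tube.jacobian_facts`; `S.e q = tilt`, by `frame_iso`). -/
theorem v_jac (m n : ℕ) (hm : 1 ≤ m) (ρm : ℝ) : ∃ ε₀ h₀ Cg₀ : ℝ, 0 < ε₀ ∧ 0 < h₀ ∧ 1 ≤ Cg₀ ∧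
    ∀ (N : NCyl m n) (x₀ : E m) (l ρ Cg : ℝ), CellHyp N x₀ l ρ ε₀ h₀ → ρ ≤ ρm → Cg₀ ≤ Cg →
    ∀ S : Sx.Sys m n, S = N.sysOf x₀ l ρ Cg →
    (∀ q, 0 ≤ S.Jpi q) ∧
    (∀ q, |S.Jpi q - 1| ≤ S.Cg * (S.e q + S.lam q)) ∧
    (∀ q, 2 * (1 - S.Jpi q) - S.e q ≤ S.Cg * (S.e q ^ 2 + S.lam q)) := by
  obtain ⟨ε₀, h₀, hε, hh, H⟩ := exists_cellCtx m n
  obtain ⟨hJ, C, hhJ, hC, HJ⟩ := jacobian_facts m n
  refine ⟨ε₀, min h₀ hJ, max 1 C, hε, lt_min hh hhJ, le_max_left _ _,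
    fun N x₀ l ρ Cg hc _ hCg S hS => ?_⟩
  have C1 := H N x₀ l ρ (hc.mono le_rfl (min_le_left _ _))
  exact C1.jac hC (hc.h_le.trans (min_le_right _ _)) (HJ 1 N.u C1.geo) Cg
    ((le_max_right _ _).trans hCg) S hS

/-- [V6] area formula for the projection (`SIV.area`, `SIV.fib_meas` with `g = npr`, `O` = the cell part of the cylinder, `φ = g∘chart · 1_{tanJac ≠ 0}`); linear change of variables `p = bco y` (`A0_facts`: `|det A0| = √g(x₀)`), `μH[m] = haarC m • volume`; a.e. finiteness of the fibres; deficient rank. -/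
theorem v_count (m n : ℕ) (hm : 1 ≤ m) (ρm : ℝ) : ∃ ε₀ h₀ Cg₀ : ℝ, 0 < ε₀ ∧ 0 < h₀ ∧ 1 ≤ Cg₀ ∧
    ∀ (N : NCyl m n) (x₀ : E m) (l ρ Cg : ℝ), CellHyp N x₀ l ρ ε₀ h₀ → ρ ≤ ρm → Cg₀ ≤ Cg →
    ∀ S : Sx.Sys m n, S = N.sysOf x₀ l ρ Cg →
    (∀ g : E m × E n → ℝ≥0∞, Measurable g →
      AEMeasurable (S.fibSum g) (volume.restrict S.Ω)) ∧
    (∀ g : E m × E n → ℝ≥0∞, Measurable g →
      ∫⁻ q, g q * ENNReal.ofReal (S.Jpi q) ∂S.μ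
        = ∫⁻ y in S.Ω, S.fibSum g y * ENNReal.ofReal (S.a y)) ∧
    (∃ Z : Set (E m), MeasurableSet Z ∧ volume Z = 0 ∧
      S.μ ({q | S.Jpi q = 0} ∩ (Zᶜ ×ˢ (univ : Set (E n)))) = 0) := by
  obtain ⟨ε₀, h₀, hε, hh, H⟩ := exists_cellCtx m n
  exact ⟨ε₀, h₀, 1, hε, hh, le_rfl, fun N x₀ l ρ Cg hc _ _ S hS =>
    (H N x₀ l ρ hc).count Cg S hS⟩

/-- [V7] sizes of the error coefficients: formulas in the header of `Tube/Inst.lean`; `|jC - 1| ≤ C (|z| + l)`, `|ω| ≤ C l`, `|Pvh| ≤ √e`, `|B| ≤ e`, `Tube.lift_trace` for constant chart fields (E2), Weingarten + `shape_facts` (E5). -/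
theorem v_err (m n : ℕ) (hm : 1 ≤ m) (ρm : ℝ) : ∃ ε₀ h₀ Cg₀ : ℝ, 0 < ε₀ ∧ 0 < h₀ ∧ 1 ≤ Cg₀ ∧
    ∀ (N : NCyl m n) (x₀ : E m) (l ρ Cg : ℝ), CellHyp N x₀ l ρ ε₀ h₀ → ρ ≤ ρm → Cg₀ ≤ Cg →
    ∀ S : Sx.Sys m n, S = N.sysOf x₀ l ρ Cg →
    (∀ q, ‖S.E1 q‖ ≤ S.Cg * S.γ * (S.e q + S.lam q)) ∧
    (∀ q, ‖S.E2 q‖ ≤ S.Cg * S.γ * (S.e q + S.lam q)) ∧
    (∀ q, ‖S.E3 q‖ ≤ S.Cg * S.γ * (Real.sqrt (S.e q) + Real.sqrt (S.lam q))) ∧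
    (∀ q, ‖S.E4 q‖ ≤ S.Cg * S.γ * Real.sqrt (S.e q * S.lam q)) ∧
    (∀ q, ‖S.E5 q‖ ≤ S.Cg * S.γ * (Real.sqrt (S.e q) + Real.sqrt (S.lam q))) ∧
    (∀ q, ‖S.E6 q‖ ≤ S.Cg * S.γ * Real.sqrt (S.e q)) :=
  v_err_aux m n ρm

/-- [V8] horizontal first variation: `Tube.stat_cyl` with `Y_X = l J_z τ C X(chart ·)`; pointwise trace identity `horiz_pointwise`. -/
theorem v_horiz (m n : ℕ) (hm : 1 ≤ m) (ρm : ℝ) : ∃ ε₀ h₀ Cg₀ : ℝ, 0 < ε₀ ∧ 0 < h₀ ∧ 1 ≤ Cg₀ ∧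
    ∀ (N : NCyl m n) (x₀ : E m) (l ρ Cg : ℝ), CellHyp N x₀ l ρ ε₀ h₀ → ρ ≤ ρm → Cg₀ ≤ Cg →
    ∀ S : Sx.Sys m n, S = N.sysOf x₀ l ρ Cg →
    (∀ X : E m × E n → E m, ContDiff ℝ 1 X → Sx.BaseCpt S.Ω X →
      ∫ q, (Sx.tr (Sx.D1 X q) + (S.a q.1)⁻¹ * fderiv ℝ S.a q.1 (X q) - Sx.tr (S.B q ∘L Sx.D1 X q)
            + Sx.tr (Sx.D2 X q ∘L S.Pvh q)) ∂S.μ
        = ∫ q, (Sx.tr (S.E1 q ∘L Sx.D1 X q) + ⟪S.E2 q, X q⟫_ℝ + Sx.tr (Sx.D2 X q ∘L S.E3 q)) ∂S.μ) := by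
  obtain ⟨ε₀, h₀, hε, hh, H⟩ := exists_cellCtx m n
  obtain ⟨ε₁, h₁, hε₁, hh₁, PH⟩ := horiz_pointwise m n
  refine ⟨min ε₀ ε₁, min h₀ h₁, 1, lt_min hε hε₁, lt_min hh hh₁, le_rfl,
    fun N x₀ l ρ Cg hc _ _ S hS => ?_⟩
  exact (H N x₀ l ρ (hc.mono (min_le_left _ _) (min_le_left _ _))).horiz
    (hc.h_le.trans (min_le_right _ _)) (PH N x₀ l (hc.geo.mono (min_le_right _ _)) hc.l_pos) Cg S hS

/-- [V9] normal first variation: `Tube.stat_cyl` with `V_v = l ν v(chart ·)`; pointwise trace identity `normal_pointwise`. -/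
theorem v_normal (m n : ℕ) (hm : 1 ≤ m) (ρm : ℝ) : ∃ ε₀ h₀ Cg₀ : ℝ, 0 < ε₀ ∧ 0 < h₀ ∧ 1 ≤ Cg₀ ∧
    ∀ (N : NCyl m n) (x₀ : E m) (l ρ Cg : ℝ), CellHyp N x₀ l ρ ε₀ h₀ → ρ ≤ ρm → Cg₀ ≤ Cg →
    ∀ S : Sx.Sys m n, S = N.sysOf x₀ l ρ Cg →
    (∀ v : E m × E n → E n, ContDiff ℝ 1 v → Sx.BaseCpt S.Ω v →
      ∫ q, (Sx.tr (S.Pvv q ∘L Sx.D2 v q) + Sx.tr ((S.Pvh q).adjoint ∘L Sx.D1 v q)) ∂S.μ
        = ∫ q, (Sx.tr (S.E4 q ∘L Sx.D2 v q) + ⟪S.E5 q, v q⟫_ℝ + Sx.tr ((S.E6 q).adjoint ∘L Sx.D1 v q)) ∂S.μ) := by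
  obtain ⟨ε₀, h₀, hε, hh, H⟩ := exists_cellCtx m n
  obtain ⟨ε₁, h₁, hε₁, hh₁, PN⟩ := normal_pointwise m n
  refine ⟨min ε₀ ε₁, min h₀ h₁, 1, lt_min hε hε₁, lt_min hh hh₁, le_rfl,
    fun N x₀ l ρ Cg hc _ _ S hS => ?_⟩
  exact (H N x₀ l ρ (hc.mono (min_le_left _ _) (min_le_left _ _))).normal
    (hc.h_le.trans (min_le_right _ _)) (PN N x₀ l (hc.geo.mono (min_le_right _ _)) hc.l_pos) Cg S hS

/-- [V10] lower mass bound for height-gap restrictions: `SIV.restr` to the cylinder over `Ω'`, `SIV.cut` to the chart preimage of `Ω' × O`, `SIV.lower_mass` in the ambient ball of radius `c r l`, which is mapped by the chart into `ball q.1 r × ball q.2 r`. -/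
theorem v_lower (m n : ℕ) (hm : 1 ≤ m) (ρm : ℝ) : ∃ ε₀ h₀ Cg₀ : ℝ, 0 < ε₀ ∧ 0 < h₀ ∧ 1 ≤ Cg₀ ∧
    ∀ (N : NCyl m n) (x₀ : E m) (l ρ Cg : ℝ), CellHyp N x₀ l ρ ε₀ h₀ → ρ ≤ ρm → Cg₀ ≤ Cg →
    ∀ S : Sx.Sys m n, S = N.sysOf x₀ l ρ Cg →
    (∀ (Ω' : Set (E m)) (O : Set (E n)), IsOpen Ω' → Ω' ⊆ S.Ω → IsOpen O → S.Gap Ω' O →
      ∀ (q : E m × E n) (r : ℝ), q ∈ S.spt → q.2 ∈ O → 0 < r → closedBall q.1 r ⊆ Ω' →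
        ENNReal.ofReal (r ^ m / S.Cg) ≤ S.μ (ball q.1 r ×ˢ (ball q.2 r ∩ O))) := by
  obtain ⟨ε₀, h₀, Cg₀, h1, h2, h3, H⟩ := v_lower_aux m n hm ρm
  refine ⟨ε₀, h₀, Cg₀, h1, h2, h3, fun N x₀ l ρ Cg hc hρ hCg S hS => ?_⟩
  have hZ : 0 ≤ N.cellZ x₀ l ρ := by
    unfold NCyl.cellZ NCyl.supz
    apply Real.sSup_nonneg
    rintro t ⟨X, -, -, -, rfl⟩
    exact norm_nonneg _
  have hl1 : l ≤ 1 := by
    have := hc.gam_le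
    linarith
  exact H N x₀ l ρ Cg hc.geo hc.h_le hc.l_pos hl1 hc.room hρ hCg S hS

theorem supz_nonneg (N : NCyl m n) (A : Set (E m)) : 0 ≤ N.supz A := by
  unfold NCyl.supz
  apply Real.sSup_nonneg
  rintro t ⟨X, -, -, -, rfl⟩
  exact norm_nonneg _

/-- two families of cell statements hold with common constants -/
theorem cell_and {ρm : ℝ} {P P' : NCyl m n → E m → ℝ → ℝ → ℝ → Prop}
    (h : ∃ ε₀ h₀ Cg₀ : ℝ, 0 < ε₀ ∧ 0 < h₀ ∧ 1 ≤ Cg₀ ∧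
      ∀ (N : NCyl m n) (x₀ : E m) (l ρ Cg : ℝ), CellHyp N x₀ l ρ ε₀ h₀ → ρ ≤ ρm → Cg₀ ≤ Cg →
        P N x₀ l ρ Cg)
    (h' : ∃ ε₀ h₀ Cg₀ : ℝ, 0 < ε₀ ∧ 0 < h₀ ∧ 1 ≤ Cg₀ ∧
      ∀ (N : NCyl m n) (x₀ : E m) (l ρ Cg : ℝ), CellHyp N x₀ l ρ ε₀ h₀ → ρ ≤ ρm → Cg₀ ≤ Cg →
        P' N x₀ l ρ Cg) :
    ∃ ε₀ h₀ Cg₀ : ℝ, 0 < ε₀ ∧ 0 < h₀ ∧ 1 ≤ Cg₀ ∧
      ∀ (N : NCyl m n) (x₀ : E m) (l ρ Cg : ℝ), CellHyp N x₀ l ρ ε₀ h₀ → ρ ≤ ρm → Cg₀ ≤ Cg →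
        P N x₀ l ρ Cg ∧ P' N x₀ l ρ Cg := by
  obtain ⟨e1, h1, c1, he1, hh1, hc1, H1⟩ := h
  obtain ⟨e2, h2, c2, he2, hh2, hc2, H2⟩ := h'
  refine ⟨min e1 e2, min h1 h2, max c1 c2, lt_min he1 he2, lt_min hh1 hh2,
    hc1.trans (le_max_left _ _), fun N x₀ l ρ Cg hc hρ hCg => ⟨?_, ?_⟩⟩
  · exact H1 N x₀ l ρ Cg (hc.mono (min_le_left _ _) (min_le_left _ _)) hρ
      ((le_max_left _ _).trans hCg)
  · exact H2 N x₀ l ρ Cg (hc.mono (min_le_right _ _) (min_le_right _ _)) hρ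
      ((le_max_right _ _).trans hCg)

/-- **The system of a cell is valid** (glue of V1-V10). -/
theorem sysOf_valid (m n : ℕ) (hm : 1 ≤ m) (ρm : ℝ) : ∃ ε₀ h₀ Cg : ℝ, 0 < ε₀ ∧ 0 < h₀ ∧ 1 ≤ Cg ∧
    ∀ (N : NCyl m n) (x₀ : E m) (l ρ : ℝ), CellHyp N x₀ l ρ ε₀ h₀ → ρ ≤ ρm →
      (N.sysOf x₀ l ρ Cg).Valid := by
  obtain ⟨ε₀, h₀, Cg, hε, hh, hC, H⟩ :=
    cell_and (v_dom m n hm ρm) (cell_and (v_meas m n hm ρm) (cell_and (v_blocks m n hm ρm)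
      (cell_and (v_lam_a m n hm ρm) (cell_and (v_jac m n hm ρm) (cell_and (v_count m n hm ρm)
        (cell_and (v_err m n hm ρm) (cell_and (v_horiz m n hm ρm)
          (cell_and (v_normal m n hm ρm) (v_lower m n hm ρm)))))))))
  refine ⟨ε₀, h₀, Cg, hε, hh, hC, fun N x₀ l ρ hc hρ => ?_⟩
  obtain ⟨a1, a2, a3, a4, a5, a6, a7, a8, a9, a10⟩ := H N x₀ l ρ Cg hc hρ le_rfl
  obtain ⟨b1, b2, b3, b4⟩ := a1 _ rfl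
  obtain ⟨m1, m2, m3, m4, m5, m6, m7, m8, m9, m10, m11⟩ := a2 _ rfl
  obtain ⟨k1, k2, k3, k4, k5, k6, k7, k8, k9, k10⟩ := a3 _ rfl
  obtain ⟨l1, l2, l3, l4, l5, l6, l7⟩ := a4 _ rfl
  obtain ⟨j1, j2, j3⟩ := a5 _ rfl
  obtain ⟨c1, c2, c3⟩ := a6 _ rfl
  obtain ⟨e1, e2, e3, e4, e5, e6⟩ := a7 _ rfl
  exact
    { isOpen_Ω := b1
      conc := b2
      finite_mass := b3
      proper := b4
      meas_B := m1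
      meas_Pvh := m2
      meas_Pvv := m3
      meas_lam := m4
      meas_Jpi := m5
      meas_E1 := m6
      meas_E2 := m7
      meas_E3 := m8
      meas_E4 := m9
      meas_E5 := m10
      meas_E6 := m11
      one_le_Cg := hC
      γ_nonneg := add_nonneg hc.l_pos.le (supz_nonneg N _)
      γ_le_one := hc.gam_le
      B_symm := k1
      B_nonneg := k2
      B_le := k3
      Pvv_symm := k4
      Pvv_nonneg := k5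
      Pvv_le := k6
      hv_vh := k7
      vh_hv := k8
      vv_vh := k9
      tr_B_eq := k10
      lam_nonneg := l1
      lam_le := l2
      a_contDiff := l3
      a_close := l4
      a_lower := l5
      a_upper := l6
      a_deriv := l7
      Jpi_nonneg := j1
      Jpi_close := j2
      Jpi_signed := j3
      count_meas := c1
      count := c2
      defic := c3
      E1_le := e1
      E2_le := e2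
      E3_le := e3
      E4_le := e4
      E5_le := e5
      E6_le := e6
      horiz := a8 _ rfl
      normal := a9 _ rfl
      lower := a10 _ rfl }

end Claimed.Agent.R322.Tube
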