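import Claimed.Agent.R322.Tube.InstValid
import Claimed.Agent.R322.Pack048
import Claimed.Agent.R322.Pack020
import Claimed.Agent.R322.Pack019
import Claimed.Agent.R322.Pack021

/-!
# R322 / Tube / Transfer0 (helper223): proofs of the leaves T0-T3 of `Tube/Transfer.lean`

`Tr0Ctx` = qualitative facts on a cell; `Tr0Ctx.push` = push-forward of a density under the chart;
`tr0_lebesgue` = Lebesgue decomposition under a measurable equivalence.
-/

set_option autoImplicit false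

open scoped ENNReal NNReal
open MeasureTheory Set Metric

namespace Claimed.Agent.R322.Tube

variable {m n : ℕ}

/-- push-forward of a measure with density under a measurable equivalence -/
theorem tr0_map_withDensity {α β : Type*} [MeasurableSpace α] [MeasurableSpace β] (e : α ≃ᵐ β)
    (lam : Measure α) (g : α → ℝ≥0∞) :
    (lam.withDensity g).map e = (lam.map e).withDensity (g ∘ e.symm) := by
  ext s hs
  rw [e.map_apply, withDensity_apply _ (e.measurable hs), withDensity_apply _ hs,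
    e.restrict_map, lintegral_map_equiv]
  simp

/-- **Lebesgue decomposition under a measurable equivalence, a restriction and constant factors.** -/
theorem tr0_lebesgue {α β : Type*} [MeasurableSpace α] [MeasurableSpace β] (e : α ≃ᵐ β)
    (ν lam₁ : Measure α) (lam₂ : Measure β) [ν.HaveLebesgueDecomposition lam₁] [SigmaFinite lam₂]
    (k a : ℝ≥0∞) (hk0 : k ≠ 0) (hmap : lam₁.map e = k • lam₂)
    (B : Set α) (hB : MeasurableSet B) :
    (a • (ν.restrict B).map e).singularPart lam₂ = a • ((ν.singularPart lam₁).restrict B).map e ∧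
    (a • (ν.restrict B).map e).rnDeriv lam₂
      =ᵐ[lam₂] fun p => a * (k * B.indicator (ν.rnDeriv lam₁) (e.symm p)) := by
  set f := ν.rnDeriv lam₁ with hf
  have hfm : Measurable f := Measure.measurable_rnDeriv _ _
  have hdec : ν = ν.singularPart lam₁ + lam₁.withDensity f := Measure.haveLebesgueDecomposition_add ν lam₁
  set f' : β → ℝ≥0∞ := fun p => a * (k * B.indicator f (e.symm p)) with hf'
  have hf'm : Measurable f' :=
    measurable_const.mul (measurable_const.mul ((hfm.indicator hB).comp e.symm.measurable))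
  have hs : (a • ((ν.singularPart lam₁).restrict B).map e) ⟂ₘ lam₂ := by
    have h1 : (ν.singularPart lam₁).restrict B ⟂ₘ lam₁ :=
      (Measure.mutuallySingular_singularPart ν lam₁).mono Measure.restrict_le_self le_rfl
    have h2 : ((ν.singularPart lam₁).restrict B).map e ⟂ₘ lam₁.map e :=
      e.measurableEmbedding.mutuallySingular_map h1
    rw [hmap] at h2
    have h3 : ((ν.singularPart lam₁).restrict B).map e ⟂ₘ lam₂ := by
      refine h2.mono_ac Measure.AbsolutelyContinuous.rfl ?_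
      exact Measure.absolutelyContinuous_smul hk0
    exact h3.smul a
  have hadd : a • (ν.restrict B).map e
      = a • ((ν.singularPart lam₁).restrict B).map e + lam₂.withDensity f' := by
    conv_lhs => rw [hdec]
    rw [Measure.restrict_add, Measure.map_add _ _ e.measurable, smul_add]
    congr 1
    have hgm : Measurable (B.indicator f ∘ e.symm) := (hfm.indicator hB).comp e.symm.measurable
    rw [restrict_withDensity hB, ← withDensity_indicator hB, tr0_map_withDensity, hmap,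
      withDensity_smul_measure, ← withDensity_smul _ hgm, ← withDensity_smul _ (hgm.const_smul k)]
    rfl
  exact ⟨(Measure.eq_singularPart hf'm hs hadd).symm, (Measure.eq_rnDeriv hf'm hs hadd).symm⟩

theorem tr0_map_affine {m : ℕ} (A : E m →L[ℝ] E m) (x₀ : E m) (l : ℝ) (hl : 0 < l)
    (hdet : LinearMap.det (A : E m →ₗ[ℝ] E m) ≠ 0) (μ : Measure (E m)) [μ.IsAddHaarMeasure] :
    μ.map (fun y => l⁻¹ • A (y - x₀))
      = ENNReal.ofReal (l ^ m / |LinearMap.det (A : E m →ₗ[ℝ] E m)|) • μ := by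
  set L : E m →ₗ[ℝ] E m := l⁻¹ • (A : E m →ₗ[ℝ] E m) with hL
  have hLdet : LinearMap.det L = (l ^ m)⁻¹ * LinearMap.det (A : E m →ₗ[ℝ] E m) := by
    rw [hL, LinearMap.det_smul, finrank_euclideanSpace_fin, inv_pow]
  have hLdet0 : LinearMap.det L ≠ 0 := by
    rw [hLdet]
    exact mul_ne_zero (inv_ne_zero (pow_ne_zero _ hl.ne')) hdet
  have e1 : (fun y => l⁻¹ • A (y - x₀)) = L ∘ (fun y => y - x₀) := by
    funext y
    simp [hL]
  have hLm : Measurable L := (LinearMap.continuous_of_finiteDimensional L).measurable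
  rw [e1, ← Measure.map_map hLm (measurable_sub_const x₀),
    (measurePreserving_sub_right μ x₀).map_eq, Measure.map_linearMap_addHaar_eq_smul_addHaar μ hLdet0,
    hLdet]
  congr 2
  rw [mul_inv, inv_inv, abs_mul, abs_of_pos (pow_pos hl m), abs_inv]
  rfl

/-- qualitative facts on a cell -/
structure Tr0Ctx (N : NCyl m n) (x₀ : E m) (l ρ : ℝ) : Prop where
  ok : Lin.CylOK N
  l_pos : 0 < l
  ρ_pos : 0 < ρ
  room : ∀ y, ‖bco N.u x₀ l y‖ ≤ ρ → y ∈ N.Ω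
  cont_chart : ContinuousOn (chart N.u x₀ l) (Cyl N.u N.Ω N.h)
  unchart_chart : ∀ X ∈ Cyl N.u N.Ω N.h, unchart N.u x₀ l (chart N.u x₀ l X) = X
  norm_chart : ∀ X ∈ Cyl N.u N.Ω N.h, ‖(chart N.u x₀ l X).2‖ = l⁻¹ * ‖zz N.u X‖
  tau_iso : ∀ y, ContinuousLinearMap.adjoint (tauF N.u x₀ y) ∘L tauF N.u x₀ y
    = ContinuousLinearMap.id ℝ _
  tau_range : ∀ y, tauF N.u x₀ y ∘L ContinuousLinearMap.adjoint (tauF N.u x₀ y) = Ph N.u y
  c1_npr : ContDiffOn ℝ 1 (npr N.u) (Cyl N.u N.Ω N.h)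
  cont_unchart : Continuous (unchart N.u x₀ l)
  unchart_mem : ∀ q : E m × E n, ‖q.1‖ ≤ ρ → l * ‖q.2‖ < N.h → unchart N.u x₀ l q ∈ Cyl N.u N.Ω N.h
  valid : ∃ Cg : ℝ, (N.sysOf x₀ l ρ Cg).Valid

theorem tr0_ctx (m n : ℕ) (hm : 1 ≤ m) (ρm : ℝ) : ∃ ε₀ h₀ : ℝ, 0 < ε₀ ∧ 0 < h₀ ∧
    ∀ (N : NCyl m n) (x₀ : E m) (l ρ : ℝ), CellHyp N x₀ l ρ ε₀ h₀ → ρ ≤ ρm → Tr0Ctx N x₀ l ρ := by
  obtain ⟨h1, hh1, H1⟩ := Lin.exists_cylOK m n
  obtain ⟨ε2, h2, hε2, hh2, H2⟩ := chart_facts m n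
  obtain ⟨ε3, hε3, H3⟩ := frame_iso m n
  obtain ⟨h4, hh4, H4⟩ := tube_deriv m n
  obtain ⟨ε5, h5, Cg, hε5, hh5, hCg, H5⟩ := sysOf_valid m n hm ρm
  refine ⟨min (min ε2 ε3) ε5, min (min h1 h2) (min h4 h5), by positivity, by positivity, ?_⟩
  intro N x₀ l ρ hc hρ
  have hc2 : GeoS 1 ε2 N.u :=
    (hc.mono ((min_le_left _ _).trans (min_le_left _ _)) le_rfl).geo
  have hc3 : GeoS 1 ε3 N.u :=
    (hc.mono ((min_le_left _ _).trans (min_le_right _ _)) le_rfl).geo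
  have hsub2 : Cyl N.u N.Ω N.h ⊆ Tub N.u h2 := fun X hX =>
    ⟨npr N.u X, hX.2.trans_le (hc.h_le.trans ((min_le_left _ _).trans (min_le_right _ _)))⟩
  have hsub4 : Cyl N.u N.Ω N.h ⊆ Tub N.u h4 := fun X hX =>
    ⟨npr N.u X, hX.2.trans_le (hc.h_le.trans ((min_le_right _ _).trans (min_le_left _ _)))⟩
  obtain ⟨a1, a2, a3, a4, a5, -⟩ := H2 1 N.u hc2 x₀ l hc.l_pos
  obtain ⟨-, -, b3⟩ := H3 1 N.u hc3 x₀
  obtain ⟨-, d2, -⟩ := H4 1 N.u hc.geo.toGeo
  exact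
    { ok := H1 1 N hc.geo.toGeo (hc.h_le.trans ((min_le_left _ _).trans (min_le_left _ _)))
      l_pos := hc.l_pos
      ρ_pos := lt_of_lt_of_le one_pos hc.one_le_ρ
      room := hc.room
      cont_chart := a1.continuousOn.mono hsub2
      unchart_chart := fun X hX => a3 X (hsub2 hX)
      norm_chart := fun X hX => a5 X (hsub2 hX)
      tau_iso := fun y => (b3 y).1
      tau_range := fun y => (b3 y).2.2.1
      c1_npr := (d2.of_le (by norm_num)).mono hsub4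
      cont_unchart := a2.continuous
      unchart_mem := fun q hq1 hq2 => by
        obtain ⟨b1, b2, b3', -⟩ := a4 q
          (hq2.trans_le (hc.h_le.trans ((min_le_left _ _).trans (min_le_right _ _))))
        have b5 := a5 _ b1
        rw [b2] at b5
        refine ⟨?_, ?_⟩
        · rw [b3']
          apply hc.room
          obtain ⟨-, h1, -⟩ := A0_facts m n N.u x₀ _ le_rfl
          have h1' : A0 N.u x₀ ((A0 N.u x₀).inverse q.1) = q.1 := by
            have := congrArg (fun f : E m →L[ℝ] E m => f q.1) h1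
            simpa using this
          have : bco N.u x₀ l (bpt N.u x₀ l q.1) = q.1 := by
            unfold bco bpt
            rw [add_sub_cancel_left, map_smul, h1', smul_smul, inv_mul_cancel₀ hc.l_pos.ne',
              one_smul]
          rw [this]
          exact hq1
        · have : ‖zz N.u (unchart N.u x₀ l q)‖ = l * ‖q.2‖ := by
            rw [b5, ← mul_assoc, mul_inv_cancel₀ hc.l_pos.ne', one_mul]
          rw [this]
          exact hq2
      valid := ⟨Cg, H5 N x₀ l ρ (hc.mono (min_le_right _ _)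
        ((min_le_right _ _).trans (min_le_right _ _))) hρ⟩ }

namespace Tr0Ctx

variable {N : NCyl m n} {x₀ : E m} {l ρ : ℝ}

theorem aem_chart (h : Tr0Ctx N x₀ l ρ) : AEMeasurable (chart N.u x₀ l) N.μ :=
  h.cont_chart.aemeasurable h.ok.measurableSet

theorem continuous_bco (u : E m → E n) (x : E m) (l : ℝ) : Continuous (bco u x l) := by
  unfold bco
  fun_prop

theorem measurableSet_cellBase (N : NCyl m n) (x₀ : E m) (l ρ : ℝ) :
    MeasurableSet (N.cellBase x₀ l ρ) :=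
  (isOpen_ball.preimage (continuous_bco N.u x₀ l)).measurableSet

/-- **push-forward of a density to the base of the chart.** -/
theorem push (h : Tr0Ctx N x₀ l ρ) (Cg : ℝ) (ψ : E m × E n → ℝ≥0∞) (hψ : Measurable ψ)
    (φ : E (m + n) → ℝ≥0∞)
    (hφ : ∀ᵐ X ∂N.μ, npr N.u X ∈ N.cellBase x₀ l ρ → ψ (chart N.u x₀ l X) = φ X) :
    ((N.sysOf x₀ l ρ Cg).μ.withDensity ψ).map Prod.fst
      = (ENNReal.ofReal (haarC m * l ^ m))⁻¹ •
        (((N.μ.withDensity φ).map (npr N.u)).restrict (N.cellBase x₀ l ρ)).map (bco N.u x₀ l) := by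
  have hβ : Measurable (bco N.u x₀ l) := (continuous_bco N.u x₀ l).measurable
  have hcB := measurableSet_cellBase N x₀ l ρ
  ext A hA
  have hGn : NullMeasurableSet (npr N.u ⁻¹' N.cellBase x₀ l ρ) N.μ :=
    h.ok.aemeasurable_npr.nullMeasurableSet_preimage hcB
  have hGA : NullMeasurableSet (npr N.u ⁻¹' (bco N.u x₀ l ⁻¹' A)) N.μ :=
    h.ok.aemeasurable_npr.nullMeasurableSet_preimage (hβ hA)
  have hL : ((N.sysOf x₀ l ρ Cg).μ.withDensity ψ).map Prod.fst A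
      = (ENNReal.ofReal (haarC m * l ^ m))⁻¹ *
        ∫⁻ X in npr N.u ⁻¹' (bco N.u x₀ l ⁻¹' A) ∩ npr N.u ⁻¹' N.cellBase x₀ l ρ,
          ψ (chart N.u x₀ l X) ∂N.μ := by
    rw [Measure.map_apply measurable_fst hA, withDensity_apply _ (measurable_fst hA),
      ← lintegral_indicator (measurable_fst hA)]
    change ∫⁻ q, (Prod.fst ⁻¹' A).indicator ψ q ∂((ENNReal.ofReal (haarC m * l ^ m))⁻¹ •
      (N.μ.restrict {X | npr N.u X ∈ N.cellBase x₀ l ρ}).map (chart N.u x₀ l)) = _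
    rw [lintegral_smul_measure, smul_eq_mul,
      lintegral_map' (hψ.indicator (measurable_fst hA)).aemeasurable
        (h.aem_chart.mono_measure Measure.restrict_le_self)]
    congr 1
    have e1 : (fun X => (Prod.fst ⁻¹' A).indicator ψ (chart N.u x₀ l X))
        = (npr N.u ⁻¹' (bco N.u x₀ l ⁻¹' A)).indicator fun X => ψ (chart N.u x₀ l X) := by
      funext X
      by_cases hX : bco N.u x₀ l (npr N.u X) ∈ A
      · rw [indicator_of_mem (show chart N.u x₀ l X ∈ Prod.fst ⁻¹' A from hX),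
          indicator_of_mem (show X ∈ npr N.u ⁻¹' (bco N.u x₀ l ⁻¹' A) from hX)]
      · rw [indicator_of_notMem (show chart N.u x₀ l X ∉ Prod.fst ⁻¹' A from hX),
          indicator_of_notMem (show X ∉ npr N.u ⁻¹' (bco N.u x₀ l ⁻¹' A) from hX)]
    rw [e1, lintegral_indicator₀ (hGA.mono_ac Measure.absolutelyContinuous_restrict),
      Measure.restrict_restrict₀ (hGA.mono_ac Measure.absolutelyContinuous_restrict)]
    rfl
  have hR : ((((N.μ.withDensity φ).map (npr N.u)).restrict (N.cellBase x₀ l ρ)).map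
      (bco N.u x₀ l)) A
      = ∫⁻ X in npr N.u ⁻¹' (bco N.u x₀ l ⁻¹' A) ∩ npr N.u ⁻¹' N.cellBase x₀ l ρ, φ X ∂N.μ := by
    rw [Measure.map_apply hβ hA, Measure.restrict_apply (hβ hA),
      Measure.map_apply_of_aemeasurable (h.ok.aemeasurable_npr_wd φ) ((hβ hA).inter hcB),
      preimage_inter, withDensity_apply₀ _ (hGA.inter hGn)]
  rw [hL, Measure.smul_apply, smul_eq_mul, hR]
  congr 1
  apply lintegral_congr_ae
  refine (ae_restrict_iff'₀ (hGA.inter hGn)).2 ?_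
  filter_upwards [hφ] with X hX hX2
  exact hX hX2.2

theorem bco_bpt (u : E m → E n) (x : E m) {l : ℝ} (hl : 0 < l) (p : E m) :
    bco u x l (bpt u x l p) = p := by
  obtain ⟨-, h1, -⟩ := A0_facts m n u x _ le_rfl
  have h1' : A0 u x ((A0 u x).inverse p) = p := by
    have := congrArg (fun f : E m →L[ℝ] E m => f p) h1
    simpa using this
  unfold bco bpt
  rw [add_sub_cancel_left, map_smul, h1', smul_smul, inv_mul_cancel₀ hl.ne', one_smul]

theorem bpt_bco (u : E m → E n) (x : E m) {l : ℝ} (hl : 0 < l) (y : E m) :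
    bpt u x l (bco u x l y) = y := by
  obtain ⟨-, -, h1, -⟩ := A0_facts m n u x _ le_rfl
  have h1' : (A0 u x).inverse (A0 u x (y - x)) = y - x := by
    have := congrArg (fun f : E m →L[ℝ] E m => f (y - x)) h1
    simpa using this
  unfold bco bpt
  rw [map_smul, h1', smul_smul, mul_inv_cancel₀ hl.ne', one_smul, add_sub_cancel]

theorem continuous_bpt (u : E m → E n) (x : E m) (l : ℝ) : Continuous (bpt u x l) := by
  unfold bpt
  fun_prop

/-- the base chart as a measurable equivalence -/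
noncomputable def eqv (u : E m → E n) (x : E m) {l : ℝ} (hl : 0 < l) : E m ≃ᵐ E m where
  toFun := bco u x l
  invFun := bpt u x l
  left_inv := bpt_bco u x hl
  right_inv := bco_bpt u x hl
  measurable_toFun := (continuous_bco u x l).measurable
  measurable_invFun := (continuous_bpt u x l).measurable

theorem supz_bdd (N : NCyl m n) (A : Set (E m)) :
    BddAbove {t : ℝ | ∃ X ∈ N.W.support, X ∈ Cyl N.u N.Ω N.h ∧ npr N.u X ∈ A ∧ t = ‖zz N.u X‖} := by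
  refine ⟨N.h, ?_⟩
  rintro t ⟨X, -, hX, -, rfl⟩
  exact hX.2.le

/-- almost every point over the cell is mapped to the good region -/
theorem ae_good (h : Tr0Ctx N x₀ l ρ) : ∀ᵐ X ∂N.μ, npr N.u X ∈ N.cellBase x₀ l ρ →
    X ∈ Cyl N.u N.Ω N.h ∧ N.good x₀ l ρ (chart N.u x₀ l X) := by
  filter_upwards [h.ok.ae_mem] with X hX hXc
  refine ⟨hX.2.1, hXc, ?_⟩
  rw [h.norm_chart X hX.2.1, ← mul_assoc, mul_inv_cancel₀ h.l_pos.ne', one_mul]
  exact le_csSup (supz_bdd N _) ⟨X, hX.1, hX.2.1, hXc, rfl⟩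

theorem e_chart (h : Tr0Ctx N x₀ l ρ) (Cg : ℝ) {X : E (m + n)} (hX : X ∈ Cyl N.u N.Ω N.h)
    (hg : N.good x₀ l ρ (chart N.u x₀ l X)) :
    (N.sysOf x₀ l ρ Cg).e (chart N.u x₀ l X) = tilt N.u (N.W.P X) X := by
  have e0 : (N.sysOf x₀ l ρ Cg).e (chart N.u x₀ l X) = Sx.tr (N.Bg x₀ l (chart N.u x₀ l X)) := by
    unfold Sx.Sys.e NCyl.sysOf
    simp only [if_pos hg]
  have e1 : bpt N.u x₀ l (chart N.u x₀ l X).1 = npr N.u X := bpt_bco N.u x₀ h.l_pos _
  rw [e0]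
  unfold NCyl.Bg NCyl.tq NCyl.Pq
  rw [e1, h.unchart_chart X hX, Sx.tr_comp_comm, ContinuousLinearMap.comp_assoc, h.tau_range,
    ContinuousLinearMap.sub_comp, Sx.tr_sub, ContinuousLinearMap.id_comp, Sx.tr_eq_trace,
    Sx.tr_eq_trace, (isProj_Ph N.u (npr N.u X)).tr]
  unfold tilt tdiv Pv
  rw [ContinuousLinearMap.comp_sub, ContinuousLinearMap.comp_id]
  have := (N.W.P_proj X).tr
  simp only [ContinuousLinearMap.toLinearMap_sub, map_sub, this]

theorem lam_chart (h : Tr0Ctx N x₀ l ρ) (Cg : ℝ) {X : E (m + n)} (hX : X ∈ Cyl N.u N.Ω N.h)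
    (hg : N.good x₀ l ρ (chart N.u x₀ l X)) :
    (N.sysOf x₀ l ρ Cg).lam (chart N.u x₀ l X) = lam N.u X := by
  unfold NCyl.sysOf
  simp only [if_pos hg]
  rw [h.unchart_chart X hX]

end Tr0Ctx

theorem tr0_haarC_spec (m : ℕ) : 0 < haarC m ∧
    (μH[(m : ℝ)] : Measure (E m)) = ENNReal.ofReal (haarC m) • volume := by
  have : (μH[(m : ℝ)] : Measure (E m)).IsAddHaarMeasure := isAddHaar_hausdorff m
  have h := Measure.isAddLeftInvariant_eq_smul (μH[(m : ℝ)] : Measure (E m)) volume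
  set c : ℝ≥0 := Measure.addHaarScalarFactor (μH[(m : ℝ)] : Measure (E m)) volume with hc
  have hv0 : 0 < (volume (ball (0 : E m) 1)).toReal :=
    ENNReal.toReal_pos (measure_ball_pos _ _ one_pos).ne' measure_ball_lt_top.ne
  have hH0 : 0 < ((μH[(m : ℝ)] : Measure (E m)) (ball 0 1)).toReal :=
    ENNReal.toReal_pos (measure_ball_pos _ _ one_pos).ne' measure_ball_lt_top.ne
  have h1 : ((μH[(m : ℝ)] : Measure (E m)) (ball 0 1)).toReal
      = c * (volume (ball (0 : E m) 1)).toReal := by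
    conv_lhs => rw [h]
    rw [Measure.smul_apply, ENNReal.smul_def, smul_eq_mul, ENNReal.toReal_mul, ENNReal.coe_toReal]
  have h2 : haarC m = c := by
    unfold haarC
    rw [h1]
    field_simp
  refine ⟨by unfold haarC; positivity, ?_⟩
  rw [h2, ENNReal.ofReal_coe_nnreal]
  exact h

namespace Tr0Ctx

variable {N : NCyl m n} {x₀ : E m} {l ρ : ℝ}

theorem sigmaFinite_nu (h : Tr0Ctx N x₀ l ρ) : SigmaFinite N.nu := by
  obtain ⟨K, hKc, hKs, hKu⟩ := Sx.Sys.exists_compact_exhaustion N.isOpen_Ω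
  refine ⟨⟨⟨fun j => N.Ωᶜ ∪ K j, fun _ => trivial, fun j => ?_, ?_⟩⟩⟩
  · refine lt_of_le_of_lt (measure_union_le _ _) ?_
    rw [h.ok.nu_compl, zero_add, h.ok.nu_apply (hKc j).measurableSet]
    exact h.ok.fin _ (hKc j) (hKs j)
  · rw [← union_iUnion, hKu, compl_union_self]

theorem det_A0_ne (u : E m → E n) (x₀ : E m) :
    LinearMap.det ((A0 u x₀ : E m →L[ℝ] E m) : E m →ₗ[ℝ] E m) ≠ 0 := by
  obtain ⟨-, h2, -⟩ := A0_facts m n u x₀ _ le_rfl
  intro h0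
  have h3 := congrArg (fun f : E m →L[ℝ] E m => LinearMap.det (f : E m →ₗ[ℝ] E m)) h2
  simp at h3
  rw [h0, zero_mul] at h3
  exact zero_ne_one h3

theorem vd0_pos (u : E m → E n) (x₀ : E m) : 0 < vdens (fderiv ℝ u x₀) := by
  obtain ⟨-, -, -, -, -, h6, -⟩ := A0_facts m n u x₀ _ le_rfl
  rw [← h6]
  exact abs_pos.2 (det_A0_ne u x₀)

/-- `μH[m]` in the base chart -/
theorem map_hausdorff (u : E m → E n) (x₀ : E m) {l : ℝ} (hl : 0 < l) :
    (μH[(m : ℝ)] : Measure (E m)).map (bco u x₀ l)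
      = ENNReal.ofReal (haarC m * l ^ m / vdens (fderiv ℝ u x₀)) • volume := by
  obtain ⟨-, -, -, -, -, h6, -⟩ := A0_facts m n u x₀ _ le_rfl
  obtain ⟨hH, hs⟩ := tr0_haarC_spec m
  have h1 := tr0_map_affine (A0 u x₀) x₀ l hl (det_A0_ne u x₀) (volume : Measure (E m))
  rw [h6] at h1
  conv_lhs => rw [hs]
  rw [Measure.map_smul]
  change ENNReal.ofReal (haarC m) • (volume : Measure (E m)).map (fun y => l⁻¹ • A0 u x₀ (y - x₀)) = _
  rw [h1, smul_smul, ← ENNReal.ofReal_mul hH.le, mul_div_assoc]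

/-- transport of a base measure to the chart -/
noncomputable def trs (N : NCyl m n) (x₀ : E m) (l ρ : ℝ) (κ : Measure (E m)) : Measure (E m) :=
  (ENNReal.ofReal (haarC m * l ^ m))⁻¹ • (κ.restrict (N.cellBase x₀ l ρ)).map (bco N.u x₀ l)

theorem nu_eq (h : Tr0Ctx N x₀ l ρ) (Cg : ℝ) : (N.sysOf x₀ l ρ Cg).nu = trs N x₀ l ρ N.nu := by
  have := h.push Cg 1 measurable_one 1 (Filter.Eventually.of_forall fun _ _ => rfl)
  rw [withDensity_one, withDensity_one] at this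
  exact this

theorem Dm_eq (h : Tr0Ctx N x₀ l ρ) (Cg : ℝ) : (N.sysOf x₀ l ρ Cg).Dm = trs N x₀ l ρ N.Dm := by
  obtain ⟨Cg', hV⟩ := h.valid
  have hB : Measurable (N.sysOf x₀ l ρ Cg).B := hV.meas_B
  refine h.push Cg (fun q => ENNReal.ofReal ((N.sysOf x₀ l ρ Cg).e q))
    (Sx.measurable_tr.comp hB).ennreal_ofReal _ ?_
  filter_upwards [h.ae_good] with X hX hXc
  rw [h.e_chart Cg (hX hXc).1 (hX hXc).2]

theorem Lm_eq (h : Tr0Ctx N x₀ l ρ) (Cg : ℝ) : (N.sysOf x₀ l ρ Cg).Lm = trs N x₀ l ρ N.Lm := by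
  obtain ⟨Cg', hV⟩ := h.valid
  have hB : Measurable (N.sysOf x₀ l ρ Cg).lam := hV.meas_lam
  refine h.push Cg (fun q => ENNReal.ofReal ((N.sysOf x₀ l ρ Cg).lam q)) hB.ennreal_ofReal _ ?_
  filter_upwards [h.ae_good] with X hX hXc
  rw [h.lam_chart Cg (hX hXc).1 (hX hXc).2]

theorem cellBase_subset (h : Tr0Ctx N x₀ l ρ) : N.cellBase x₀ l ρ ⊆ N.Ω := by
  intro y hy
  apply h.room
  have : ‖bco N.u x₀ l y‖ < ρ := by simpa [NCyl.cellBase] using hy
  exact this.le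

theorem cellChi_eq_one {ρ : ℝ} (hρ : 0 < ρ) {p : E m} (hp : p ∈ ball (0 : E m) ρ) :
    cellChi m ρ p = 1 := by
  unfold cellChi
  rw [dif_pos hρ]
  exact ((Tool.exists_cutoff m).choose_spec.2 ρ hρ).choose_spec.2.2.1 p hp

theorem ag_eq (h : Tr0Ctx N x₀ l ρ) {p : E m} (hp : p ∈ ball (0 : E m) ρ) :
    N.ag x₀ l ρ p = vdens (fderiv ℝ N.u (bpt N.u x₀ l p)) / vdens (fderiv ℝ N.u x₀) := by
  unfold NCyl.ag
  rw [cellChi_eq_one h.ρ_pos hp]
  ring

theorem measurable_vd (h : Tr0Ctx N x₀ l ρ) :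
    Measurable fun y => ENNReal.ofReal (vdens (fderiv ℝ N.u y)) :=
  (Lin.continuous_vdens.comp (h.ok.smooth.continuous_fderiv (by norm_num))).measurable.ennreal_ofReal

theorem const_mul (h : Tr0Ctx N x₀ l ρ) :
    (ENNReal.ofReal (haarC m * l ^ m))⁻¹
        * ENNReal.ofReal (haarC m * l ^ m / vdens (fderiv ℝ N.u x₀))
      = ENNReal.ofReal (vdens (fderiv ℝ N.u x₀))⁻¹ := by
  have hH := (tr0_haarC_spec m).1
  have hl := h.l_pos
  have hv := vd0_pos N.u x₀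
  rw [← ENNReal.ofReal_inv_of_pos (by positivity), ← ENNReal.ofReal_mul (by positivity)]
  congr 1
  field_simp

theorem mem_cellBase_bpt (h : Tr0Ctx N x₀ l ρ) (p : E m) :
    bpt N.u x₀ l p ∈ N.cellBase x₀ l ρ ↔ p ∈ ball (0 : E m) ρ := by
  unfold NCyl.cellBase
  rw [mem_ofPred_eq, bco_bpt N.u x₀ h.l_pos]

/-- transport of a measure with density with respect to `μH[m]` -/
theorem trs_withDensity (h : Tr0Ctx N x₀ l ρ) (g : E m → ℝ≥0∞) (hg : Measurable g) :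
    trs N x₀ l ρ ((μH[(m : ℝ)] : Measure (E m)).withDensity g)
      = (volume : Measure (E m)).withDensity ((ball (0 : E m) ρ).indicator fun p =>
          ENNReal.ofReal (vdens (fderiv ℝ N.u x₀))⁻¹ * g (bpt N.u x₀ l p)) := by
  have hcB := measurableSet_cellBase N x₀ l ρ
  have hgm : Measurable ((N.cellBase x₀ l ρ).indicator g ∘ (eqv N.u x₀ h.l_pos).symm) :=
    (hg.indicator hcB).comp (eqv N.u x₀ h.l_pos).symm.measurable
  unfold trs
  rw [restrict_withDensity hcB, ← withDensity_indicator hcB]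
  change _ • ((μH[(m : ℝ)] : Measure (E m)).withDensity _).map (eqv N.u x₀ h.l_pos) = _
  rw [tr0_map_withDensity]
  change _ • (((μH[(m : ℝ)] : Measure (E m)).map (bco N.u x₀ l)).withDensity _) = _
  rw [map_hausdorff N.u x₀ h.l_pos, withDensity_smul_measure, smul_smul, h.const_mul,
    ← withDensity_smul _ hgm]
  congr 1
  funext p
  change _ * (N.cellBase x₀ l ρ).indicator g (bpt N.u x₀ l p) = _
  by_cases hp : p ∈ ball (0 : E m) ρ
  · rw [indicator_of_mem hp, indicator_of_mem ((h.mem_cellBase_bpt p).2 hp)]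
  · rw [indicator_of_notMem hp, indicator_of_notMem (fun hc => hp ((h.mem_cellBase_bpt p).1 hc)),
      mul_zero]

theorem volS_eq (h : Tr0Ctx N x₀ l ρ) (Cg : ℝ) :
    (N.sysOf x₀ l ρ Cg).volS = trs N x₀ l ρ N.volS := by
  have hcB := measurableSet_cellBase N x₀ l ρ
  have e1 : trs N x₀ l ρ N.volS = trs N x₀ l ρ ((μH[(m : ℝ)] : Measure (E m)).withDensity
      fun y => ENNReal.ofReal (vdens (fderiv ℝ N.u y))) := by
    unfold trs NCyl.volS
    rw [restrict_withDensity hcB, restrict_withDensity hcB, Measure.restrict_restrict hcB,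
      inter_eq_self_of_subset_left h.cellBase_subset]
  rw [e1, h.trs_withDensity _ h.measurable_vd]
  change ((volume : Measure (E m)).restrict (ball 0 ρ)).withDensity
    (fun y => ENNReal.ofReal (N.ag x₀ l ρ y)) = _
  rw [← withDensity_indicator measurableSet_ball]
  congr 1
  funext p
  by_cases hp : p ∈ ball (0 : E m) ρ
  · rw [indicator_of_mem hp, indicator_of_mem hp, h.ag_eq hp,
      ← ENNReal.ofReal_mul (inv_nonneg.2 (vd0_pos N.u x₀).le)]
    congr 1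
    rw [div_eq_inv_mul]
  · rw [indicator_of_notMem hp, indicator_of_notMem hp]

theorem trs_add (N : NCyl m n) (x₀ : E m) (l ρ : ℝ) (κ κ' : Measure (E m)) :
    trs N x₀ l ρ (κ + κ') = trs N x₀ l ρ κ + trs N x₀ l ρ κ' := by
  unfold trs
  rw [Measure.restrict_add, Measure.map_add _ _ (continuous_bco N.u x₀ l).measurable, smul_add]

theorem trs_restrict_ball (N : NCyl m n) (x₀ : E m) (l ρ : ℝ) (κ : Measure (E m)) :
    (trs N x₀ l ρ κ).restrict (ball (0 : E m) ρ) = trs N x₀ l ρ κ := by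
  unfold trs
  rw [Measure.restrict_smul, Measure.restrict_map (continuous_bco N.u x₀ l).measurable
    measurableSet_ball]
  have : bco N.u x₀ l ⁻¹' ball (0 : E m) ρ = N.cellBase x₀ l ρ := rfl
  rw [this, Measure.restrict_restrict (measurableSet_cellBase N x₀ l ρ), inter_self]

theorem trs_restrict_Ω (h : Tr0Ctx N x₀ l ρ) (κ : Measure (E m)) :
    trs N x₀ l ρ (κ.restrict N.Ω) = trs N x₀ l ρ κ := by
  unfold trs
  rw [Measure.restrict_restrict (measurableSet_cellBase N x₀ l ρ),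
    inter_eq_self_of_subset_left h.cellBase_subset]

theorem absM_eq (h : Tr0Ctx N x₀ l ρ) (Cg : ℝ) :
    (N.sysOf x₀ l ρ Cg).absM N.Q = trs N x₀ l ρ N.Mabs := by
  have hcB := measurableSet_cellBase N x₀ l ρ
  have : SigmaFinite N.nu := h.sigmaFinite_nu
  have : (μH[(m : ℝ)] : Measure (E m)).IsAddHaarMeasure := isAddHaar_hausdorff m
  have hH := (tr0_haarC_spec m).1
  have hv := vd0_pos N.u x₀
  have hl := h.l_pos
  set f := N.nu.rnDeriv (μH[(m : ℝ)] : Measure (E m)) with hf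
  have hfm : Measurable f := Measure.measurable_rnDeriv _ _
  set F : E m → ℝ≥0∞ := fun y =>
    ENNReal.ofReal |(f y).toReal - N.Q * vdens (fderiv ℝ N.u y)| with hF
  have hvm : Measurable fun y => vdens (fderiv ℝ N.u y) :=
    (Lin.continuous_vdens.comp (h.ok.smooth.continuous_fderiv (by norm_num))).measurable
  have hFm : Measurable F :=
    ((hfm.ennreal_toReal.sub (measurable_const.mul hvm)).abs).ennreal_ofReal
  -- right side
  have eR : trs N x₀ l ρ N.Mabs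
      = trs N x₀ l ρ (N.nu.singularPart (μH[(m : ℝ)] : Measure (E m)))
        + (volume : Measure (E m)).withDensity ((ball (0 : E m) ρ).indicator fun p =>
          ENNReal.ofReal (vdens (fderiv ℝ N.u x₀))⁻¹ * F (bpt N.u x₀ l p)) := by
    unfold NCyl.Mabs
    rw [h.trs_restrict_Ω, trs_add, h.trs_withDensity F hFm]
  -- left side
  obtain ⟨hs, hr⟩ := tr0_lebesgue (eqv N.u x₀ h.l_pos) N.nu (μH[(m : ℝ)] : Measure (E m)) volume
    (ENNReal.ofReal (haarC m * l ^ m / vdens (fderiv ℝ N.u x₀)))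
    (ENNReal.ofReal (haarC m * l ^ m))⁻¹
    (by
      rw [ne_eq, ENNReal.ofReal_eq_zero, not_le]
      positivity)
    (map_hausdorff N.u x₀ h.l_pos) (N.cellBase x₀ l ρ) hcB
  have hnu : (N.sysOf x₀ l ρ Cg).nu = (ENNReal.ofReal (haarC m * l ^ m))⁻¹ •
      (N.nu.restrict (N.cellBase x₀ l ρ)).map (eqv N.u x₀ h.l_pos) := h.nu_eq Cg
  rw [eR]
  unfold Sx.Sys.absM
  rw [hnu, hs]
  change (trs N x₀ l ρ (N.nu.singularPart (μH[(m : ℝ)] : Measure (E m))) + _).restrict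
    (ball (0 : E m) ρ) = _
  rw [Measure.restrict_add, trs_restrict_ball, restrict_withDensity measurableSet_ball,
    ← withDensity_indicator measurableSet_ball]
  congr 1
  apply withDensity_congr_ae
  filter_upwards [hr] with p hp
  by_cases hpb : p ∈ ball (0 : E m) ρ
  · rw [indicator_of_mem hpb, indicator_of_mem hpb, hp]
    change ENNReal.ofReal |(_ * (_ * (N.cellBase x₀ l ρ).indicator f (bpt N.u x₀ l p))).toReal
      - N.Q * N.ag x₀ l ρ p| = _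
    rw [indicator_of_mem ((h.mem_cellBase_bpt p).2 hpb), ← mul_assoc, h.const_mul, h.ag_eq hpb,
      ENNReal.toReal_mul, ENNReal.toReal_ofReal (inv_nonneg.2 hv.le), hF,
      ← ENNReal.ofReal_mul (inv_nonneg.2 hv.le)]
    congr 1
    rw [← abs_of_pos (inv_pos.2 hv), ← abs_mul, abs_of_pos (inv_pos.2 hv)]
    congr 1
    field_simp
  · rw [indicator_of_notMem hpb, indicator_of_notMem hpb]

end Tr0Ctx

namespace Tr0Ctx

variable {N : NCyl m n} {x₀ : E m} {l ρ : ℝ}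

theorem trs_apply (N : NCyl m n) (x₀ : E m) (l ρ : ℝ) (κ : Measure (E m)) {A : Set (E m)}
    (hA : MeasurableSet A) (hAs : A ⊆ ball (0 : E m) ρ) :
    trs N x₀ l ρ κ A = (ENNReal.ofReal (haarC m * l ^ m))⁻¹ * κ (bco N.u x₀ l ⁻¹' A) := by
  have hβ : Measurable (bco N.u x₀ l) := (continuous_bco N.u x₀ l).measurable
  unfold trs
  rw [Measure.smul_apply, smul_eq_mul, Measure.map_apply hβ hA, Measure.restrict_apply (hβ hA)]
  congr 2
  exact inter_eq_self_of_subset_left (preimage_mono hAs)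

theorem integral_trs (h : Tr0Ctx N x₀ l ρ) (κ : Measure (E m)) {w : E m → ℝ} (hw : Measurable w)
    (hw0 : ∀ p, p ∉ ball (0 : E m) ρ → w p = 0) :
    ∫ p, w p ∂(trs N x₀ l ρ κ) = (haarC m * l ^ m)⁻¹ * ∫ y, w (bco N.u x₀ l y) ∂κ := by
  have hβ : Measurable (bco N.u x₀ l) := (continuous_bco N.u x₀ l).measurable
  have hH := (tr0_haarC_spec m).1
  have hl := h.l_pos
  have e1 : ∫ y in N.cellBase x₀ l ρ, w (bco N.u x₀ l y) ∂κ = ∫ y, w (bco N.u x₀ l y) ∂κ :=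
    setIntegral_eq_integral_of_forall_compl_eq_zero (fun y hy => hw0 _ hy)
  unfold trs
  rw [integral_smul_measure, integral_map hβ.aemeasurable hw.aestronglyMeasurable,
    e1, ENNReal.toReal_inv, ENNReal.toReal_ofReal (by positivity), smul_eq_mul]

theorem intM_eq (h : Tr0Ctx N x₀ l ρ) (Cg : ℝ) {w : E m → ℝ} (hw : Measurable w)
    (hw0 : ∀ p, p ∉ ball (0 : E m) ρ → w p = 0) :
    (N.sysOf x₀ l ρ Cg).intM N.Q w = (haarC m * l ^ m)⁻¹ * N.intM (w ∘ bco N.u x₀ l) := by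
  obtain ⟨Cg', hV⟩ := h.valid
  have ha : Measurable (N.sysOf x₀ l ρ Cg).a := hV.a_contDiff.continuous.measurable
  have ha0 : ∀ y, 1 / 2 ≤ (N.sysOf x₀ l ρ Cg).a y := hV.a_lower
  have e1 : ∫ q, w q.1 ∂(N.sysOf x₀ l ρ Cg).μ = ∫ p, w p ∂(N.sysOf x₀ l ρ Cg).nu := by
    unfold Sx.Sys.nu
    rw [integral_map measurable_fst.aemeasurable hw.aestronglyMeasurable]
  have e2 : ∫ y in (N.sysOf x₀ l ρ Cg).Ω, w y * (N.sysOf x₀ l ρ Cg).a y
      = ∫ p, w p ∂(N.sysOf x₀ l ρ Cg).volS := by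
    unfold Sx.Sys.volS
    rw [integral_withDensity_eq_integral_toReal_smul ha.ennreal_ofReal
      (Filter.Eventually.of_forall fun _ => ENNReal.ofReal_lt_top)]
    refine integral_congr_ae (Filter.Eventually.of_forall fun y => ?_)
    simp only
    rw [ENNReal.toReal_ofReal (by linarith [ha0 y]), smul_eq_mul, mul_comm]
  unfold Sx.Sys.intM NCyl.intM
  rw [e1, e2, h.nu_eq, h.volS_eq, h.integral_trs _ hw hw0, h.integral_trs _ hw hw0]
  simp only [Function.comp]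
  ring

theorem intD_eq (h : Tr0Ctx N x₀ l ρ) (Cg : ℝ) {w : E m → ℝ} (hw : Measurable w)
    (hw0 : ∀ p, p ∉ ball (0 : E m) ρ → w p = 0) :
    (N.sysOf x₀ l ρ Cg).intD w = (haarC m * l ^ m)⁻¹ * ∫ y, w (bco N.u x₀ l y) ∂N.Dm := by
  obtain ⟨Cg', hV⟩ := h.valid
  have e1 : (N.sysOf x₀ l ρ Cg).intD w = ∫ y, w y ∂(N.sysOf x₀ l ρ Cg).Dm := hV.intD_eq hw
  rw [e1, h.Dm_eq, h.integral_trs _ hw hw0]

theorem intLam_eq (h : Tr0Ctx N x₀ l ρ) (Cg : ℝ) {w : E m → ℝ} (hw : Measurable w)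
    (hw0 : ∀ p, p ∉ ball (0 : E m) ρ → w p = 0) :
    (N.sysOf x₀ l ρ Cg).intLam w = (haarC m * l ^ m)⁻¹ * ∫ y, w (bco N.u x₀ l y) ∂N.Lm := by
  obtain ⟨Cg', hV⟩ := h.valid
  have e1 : (N.sysOf x₀ l ρ Cg).intLam w = ∫ y, w y ∂(N.sysOf x₀ l ρ Cg).Lm := hV.intLam_eq hw
  rw [e1, h.Lm_eq, h.integral_trs _ hw hw0]

end Tr0Ctx

theorem tr0_transfer_int (m n : ℕ) (hm : 1 ≤ m) (ρm : ℝ) : ∃ ε₀ h₀ : ℝ, 0 < ε₀ ∧ 0 < h₀ ∧
    ∀ (N : NCyl m n) (x₀ : E m) (l ρ Cg : ℝ), CellHyp N x₀ l ρ ε₀ h₀ → ρ ≤ ρm →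
    ∀ w : E m → ℝ, Measurable w → (∀ p, p ∉ ball (0 : E m) ρ → w p = 0) →
      (N.sysOf x₀ l ρ Cg).intM N.Q w = (haarC m * l ^ m)⁻¹ * N.intM (w ∘ bco N.u x₀ l) ∧
      (N.sysOf x₀ l ρ Cg).intD w = (haarC m * l ^ m)⁻¹ * ∫ y, w (bco N.u x₀ l y) ∂N.Dm ∧
      (N.sysOf x₀ l ρ Cg).intLam w = (haarC m * l ^ m)⁻¹ * ∫ y, w (bco N.u x₀ l y) ∂N.Lm := by
  obtain ⟨ε₀, h₀, hε, hh, H⟩ := tr0_ctx m n hm ρm
  refine ⟨ε₀, h₀, hε, hh, fun N x₀ l ρ Cg hc hρ w hw hw0 => ?_⟩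
  have h := H N x₀ l ρ hc hρ
  exact ⟨h.intM_eq Cg hw hw0, h.intD_eq Cg hw hw0, h.intLam_eq Cg hw hw0⟩

theorem tr0_transfer_meas (m n : ℕ) (hm : 1 ≤ m) (ρm : ℝ) : ∃ ε₀ h₀ : ℝ, 0 < ε₀ ∧ 0 < h₀ ∧
    ∀ (N : NCyl m n) (x₀ : E m) (l ρ Cg : ℝ), CellHyp N x₀ l ρ ε₀ h₀ → ρ ≤ ρm →
    ∀ A : Set (E m), MeasurableSet A → A ⊆ ball (0 : E m) ρ →
      (N.sysOf x₀ l ρ Cg).nu A = (ENNReal.ofReal (haarC m * l ^ m))⁻¹ * N.nu (bco N.u x₀ l ⁻¹' A) ∧
      (N.sysOf x₀ l ρ Cg).volS A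
        = (ENNReal.ofReal (haarC m * l ^ m))⁻¹ * N.volS (bco N.u x₀ l ⁻¹' A) ∧
      (N.sysOf x₀ l ρ Cg).Dm A = (ENNReal.ofReal (haarC m * l ^ m))⁻¹ * N.Dm (bco N.u x₀ l ⁻¹' A) ∧
      (N.sysOf x₀ l ρ Cg).Lm A = (ENNReal.ofReal (haarC m * l ^ m))⁻¹ * N.Lm (bco N.u x₀ l ⁻¹' A) ∧
      (N.sysOf x₀ l ρ Cg).absM N.Q A
        = (ENNReal.ofReal (haarC m * l ^ m))⁻¹ * N.Mabs (bco N.u x₀ l ⁻¹' A) := by
  obtain ⟨ε₀, h₀, hε, hh, H⟩ := tr0_ctx m n hm ρm
  refine ⟨ε₀, h₀, hε, hh, fun N x₀ l ρ Cg hc hρ A hA hAs => ?_⟩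
  have h := H N x₀ l ρ hc hρ
  rw [h.nu_eq, h.volS_eq, h.Dm_eq, h.Lm_eq, h.absM_eq]
  exact ⟨Tr0Ctx.trs_apply N x₀ l ρ _ hA hAs, Tr0Ctx.trs_apply N x₀ l ρ _ hA hAs,
    Tr0Ctx.trs_apply N x₀ l ρ _ hA hAs, Tr0Ctx.trs_apply N x₀ l ρ _ hA hAs,
    Tr0Ctx.trs_apply N x₀ l ρ _ hA hAs⟩

namespace Tr0Ctx

variable {N : NCyl m n} {x₀ : E m} {l ρ : ℝ}

/-- a compact part of the cylinder containing all support points over the cell -/
theorem exists_compact (h : Tr0Ctx N x₀ l ρ) : ∃ K : Set (E (m + n)), IsCompact K ∧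
    K ⊆ Cyl N.u N.Ω N.h ∧ ∀ X ∈ Cyl N.u N.Ω N.h, npr N.u X ∈ N.cellBase x₀ l ρ →
      ‖zz N.u X‖ < N.h' → X ∈ K := by
  refine ⟨unchart N.u x₀ l '' (closedBall (0 : E m) ρ ×ˢ closedBall (0 : E n) (l⁻¹ * N.h')),
    ((isCompact_closedBall _ _).prod (isCompact_closedBall _ _)).image h.cont_unchart, ?_, ?_⟩
  · rintro _ ⟨q, ⟨hq1, hq2⟩, rfl⟩
    rw [mem_closedBall, dist_zero_right] at hq1 hq2
    apply h.unchart_mem q hq1
    calc l * ‖q.2‖ ≤ l * (l⁻¹ * N.h') := mul_le_mul_of_nonneg_left hq2 h.l_pos.le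
      _ = N.h' := by rw [← mul_assoc, mul_inv_cancel₀ h.l_pos.ne', one_mul]
      _ < N.h := N.h'_lt
  · intro X hX hXc hz
    refine ⟨chart N.u x₀ l X, ⟨?_, ?_⟩, h.unchart_chart X hX⟩
    · exact ball_subset_closedBall hXc
    · rw [mem_closedBall, dist_zero_right, h.norm_chart X hX]
      exact mul_le_mul_of_nonneg_left hz.le (inv_pos.2 h.l_pos).le

theorem count_eq (h : Tr0Ctx N x₀ l ρ) (Cg : ℝ) :
    ∀ᵐ y ∂(μH[(m : ℝ)] : Measure (E m)), y ∈ N.cellBase x₀ l ρ →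
      N.cnt y = ((N.sysOf x₀ l ρ Cg).N (bco N.u x₀ l y) : ℝ≥0∞) := by
  classical
  obtain ⟨K, hK, hKs, hKm⟩ := h.exists_compact
  have hZ : N.W.μ ({X | ¬ (X ∈ N.W.support ∧ X ∈ Cyl N.u N.Ω N.h ∧ ‖zz N.u X‖ < N.h')}
      ∩ Cyl N.u N.Ω N.h) = 0 := by
    have := h.ok.carrier
    unfold NCyl.μ at this
    rwa [Measure.restrict_apply' h.ok.measurableSet] at this
  filter_upwards [N.W.ae_fibre_jac_pos h.ok.isOpen N.cyl_sub h.c1_npr,
    N.W.ae_fibre_avoid h.ok.isOpen N.cyl_sub h.c1_npr hZ,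
    N.W.ae_fibre_finite h.ok.isOpen N.cyl_sub h.c1_npr hK hKs] with y h1 h2 h3 hy
  have hgoodpt : ∀ X ∈ N.W.M ∩ Cyl N.u N.Ω N.h, npr N.u X = y →
      X ∈ N.W.support ∧ ‖zz N.u X‖ < N.h' := by
    intro X hX hXy
    have := h2 X hX hXy
    by_contra hcon
    exact this ⟨fun hc => hcon ⟨hc.1, hc.2.2⟩, hX.2⟩
  have hset : N.fibSet x₀ l ρ (bco N.u x₀ l y)
      = {X | X ∈ N.W.M ∩ Cyl N.u N.Ω N.h ∧ npr N.u X = y} := by
    ext X
    unfold NCyl.fibSet
    simp only [mem_ofPred_eq, bpt_bco N.u x₀ h.l_pos]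
    constructor
    · rintro ⟨a1, a2, a3, -, -⟩
      exact ⟨⟨a1, a2⟩, a3⟩
    · rintro ⟨⟨a1, a2⟩, a3⟩
      refine ⟨a1, a2, a3, (h1 X ⟨a1, a2⟩ a3).ne', ?_⟩
      exact le_csSup (supz_bdd N _) ⟨X, (hgoodpt X ⟨a1, a2⟩ a3).1, a2, a3 ▸ hy, rfl⟩
  have hfin : (N.fibSet x₀ l ρ (bco N.u x₀ l y)).Finite := by
    rw [hset]
    refine h3.subset ?_
    rintro X ⟨hX, hXy⟩
    exact ⟨⟨hX.1, hKm X hX.2 (hXy ▸ hy) (hgoodpt X hX hXy).2⟩, hXy⟩
  have hN : (N.sysOf x₀ l ρ Cg).N (bco N.u x₀ l y) = ∑ X ∈ hfin.toFinset, N.W.θ X := by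
    change Multiset.card (N.fibg x₀ l ρ (bco N.u x₀ l y)) = _
    unfold NCyl.fibg
    rw [dif_pos ⟨hfin, hy⟩, Multiset.card_bind]
    simp only [Function.comp_def, Multiset.card_replicate]
    rfl
  rw [hN, Nat.cast_sum]
  unfold NCyl.cnt
  change ∑' X : ↥{X | X ∈ N.W.M ∩ Cyl N.u N.Ω N.h ∧ npr N.u X = y}, (N.W.θ X : ℝ≥0∞) = _
  rw [← Finset.tsum_subtype' hfin.toFinset (fun X => (N.W.θ X : ℝ≥0∞))]
  refine tsum_congr_set_coe (fun X => (N.W.θ X : ℝ≥0∞)) ?_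
  rw [hfin.coe_toFinset, hset]

end Tr0Ctx

theorem tr0_transfer_count (m n : ℕ) (hm : 1 ≤ m) (ρm : ℝ) : ∃ ε₀ h₀ : ℝ, 0 < ε₀ ∧ 0 < h₀ ∧
    ∀ (N : NCyl m n) (x₀ : E m) (l ρ Cg : ℝ), CellHyp N x₀ l ρ ε₀ h₀ → ρ ≤ ρm →
      ∀ᵐ y ∂(μH[(m : ℝ)] : Measure (E m)), y ∈ N.cellBase x₀ l ρ →
        N.cnt y = ((N.sysOf x₀ l ρ Cg).N (bco N.u x₀ l y) : ℝ≥0∞) := by
  obtain ⟨ε₀, h₀, hε, hh, H⟩ := tr0_ctx m n hm ρm
  exact ⟨ε₀, h₀, hε, hh, fun N x₀ l ρ Cg hc hρ => (H N x₀ l ρ hc hρ).count_eq Cg⟩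

end Claimed.Agent.R322.Tube
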