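import Claimed.Agent.R322.Tube.InstValid
import Claimed.Agent.R322.Tube.Transfer0
import Claimed.Agent.R322.Sx.Main
import Claimed.Agent.R322.Pack023
import Claimed.Agent.R322.Pack033

/-!
# From sheeted systems back to normal cylinders (leaves T1-T5)

`S = N.sysOf x₀ l ρ Cg`, `β = bco N.u x₀ l` (affine bijection of `E m`), `c = haarC m * l ^ m`.
* `transfer_int`  : `S.intM Q w = c⁻¹ N.intM (w ∘ β)` etc. for `w` vanishing outside `ball 0 ρ`.
* `transfer_meas` : `S.nu A = c⁻¹ N.nu (β ⁻¹' A)` etc. for measurable `A ⊆ ball 0 ρ`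
  (`absM`: Lebesgue decomposition is compatible with the affine bijection `β` and with
  `μH[m] = haarC m • volume`; `Measure.rnDeriv`/`singularPart` of a map under a measurable equivalence).
* `transfer_count`: `S.N (β y) = N.cnt y` for `μH[m]`-a.e. `y` in the cell.
* `FQ_rate`       : `T^a exp(-F_Q(T - c)) → 0`.
* `signed_excess_one`, `scalar_input_one`: the two estimates for reference graphs with `K = 1`.
  Signed excess: chart scale `l' = (1 + ε₀) l`, `ρ = 4 + 1/4`; then `ball 0 4 ⊆ S.Ω`,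
  `β ⁻¹' ball 0 ρ ⊆ ball x (5 l)`, `w' = (1 + ε₀)⁻¹ w ∘ β⁻¹` is an admissible weight on `ball 0 1`,
  `S.γ ≤ 2 exp(-κT) ≤ exp(-(κ/2) T')`, `S.tau Q (ball 0 4) ≤ haarC⁻¹ exp(-T) = exp(-T')`.
-/

set_option autoImplicit false

open scoped ENNReal NNReal
open MeasureTheory Set Metric

namespace Claimed.Agent.R322.Tube

variable {m n : ℕ}

/-- [T0] the Haar constant. -/
theorem haarC_spec (m : ℕ) : 0 < haarC m ∧
    (μH[(m : ℝ)] : Measure (E m)) = ENNReal.ofReal (haarC m) • volume :=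
  tr0_haarC_spec m

/-- [T1] integrals. -/
theorem transfer_int (m n : ℕ) (hm : 1 ≤ m) (ρm : ℝ) : ∃ ε₀ h₀ : ℝ, 0 < ε₀ ∧ 0 < h₀ ∧
    ∀ (N : NCyl m n) (x₀ : E m) (l ρ Cg : ℝ), CellHyp N x₀ l ρ ε₀ h₀ → ρ ≤ ρm →
    ∀ w : E m → ℝ, Measurable w → (∀ p, p ∉ ball (0 : E m) ρ → w p = 0) →
      (N.sysOf x₀ l ρ Cg).intM N.Q w = (haarC m * l ^ m)⁻¹ * N.intM (w ∘ bco N.u x₀ l) ∧
      (N.sysOf x₀ l ρ Cg).intD w = (haarC m * l ^ m)⁻¹ * ∫ y, w (bco N.u x₀ l y) ∂N.Dm ∧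
      (N.sysOf x₀ l ρ Cg).intLam w = (haarC m * l ^ m)⁻¹ * ∫ y, w (bco N.u x₀ l y) ∂N.Lm :=
  tr0_transfer_int m n hm ρm

/-- [T2] measures. -/
theorem transfer_meas (m n : ℕ) (hm : 1 ≤ m) (ρm : ℝ) : ∃ ε₀ h₀ : ℝ, 0 < ε₀ ∧ 0 < h₀ ∧
    ∀ (N : NCyl m n) (x₀ : E m) (l ρ Cg : ℝ), CellHyp N x₀ l ρ ε₀ h₀ → ρ ≤ ρm →
    ∀ A : Set (E m), MeasurableSet A → A ⊆ ball (0 : E m) ρ →
      (N.sysOf x₀ l ρ Cg).nu A = (ENNReal.ofReal (haarC m * l ^ m))⁻¹ * N.nu (bco N.u x₀ l ⁻¹' A) ∧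
      (N.sysOf x₀ l ρ Cg).volS A
        = (ENNReal.ofReal (haarC m * l ^ m))⁻¹ * N.volS (bco N.u x₀ l ⁻¹' A) ∧
      (N.sysOf x₀ l ρ Cg).Dm A = (ENNReal.ofReal (haarC m * l ^ m))⁻¹ * N.Dm (bco N.u x₀ l ⁻¹' A) ∧
      (N.sysOf x₀ l ρ Cg).Lm A = (ENNReal.ofReal (haarC m * l ^ m))⁻¹ * N.Lm (bco N.u x₀ l ⁻¹' A) ∧
      (N.sysOf x₀ l ρ Cg).absM N.Q A
        = (ENNReal.ofReal (haarC m * l ^ m))⁻¹ * N.Mabs (bco N.u x₀ l ⁻¹' A) :=
  tr0_transfer_meas m n hm ρm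

/-- [T3] counts. -/
theorem transfer_count (m n : ℕ) (hm : 1 ≤ m) (ρm : ℝ) : ∃ ε₀ h₀ : ℝ, 0 < ε₀ ∧ 0 < h₀ ∧
    ∀ (N : NCyl m n) (x₀ : E m) (l ρ Cg : ℝ), CellHyp N x₀ l ρ ε₀ h₀ → ρ ≤ ρm →
      ∀ᵐ y ∂(μH[(m : ℝ)] : Measure (E m)), y ∈ N.cellBase x₀ l ρ →
        N.cnt y = ((N.sysOf x₀ l ρ Cg).N (bco N.u x₀ l y) : ℝ≥0∞) :=
  tr0_transfer_count m n hm ρm

/-- [T4] the rate of AE Theorem 3.1 beats every power. -/
theorem FQ_rate (Q : ℕ) (c : ℝ) (a : ℕ) :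
    Filter.Tendsto (fun T : ℝ => T ^ a * Real.exp (-(Sx.FQ Q (T - c)))) Filter.atTop (nhds 0) :=
  Sx.rt_FQ_rate Q c a

/-! ### helpers for T5 -/

theorem t5_geoS {u : E m → E n} {ε₀ ε₁ : ℝ} (h : RefGraph 5 1 ε₀ u) (hε : ε₀ ≤ ε₁) (h2 : ε₀ ≤ 1 / 2) :
    GeoS 1 ε₁ u :=
  { smooth := h.smooth.of_le (by norm_num)
    slope := fun y => (h.slope y).trans h2
    d2 := h.bound 2 le_rfl (by norm_num)
    d3 := h.bound 3 (by norm_num) (by norm_num)
    le_one := le_rfl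
    slope' := fun y => (h.slope y).trans hε
    smooth5 := by exact_mod_cast h.smooth
    d4 := h.bound 4 (by norm_num) (by norm_num)
    d5 := h.bound 5 (by norm_num) le_rfl }

theorem t5_bco_bpt (u : E m → E n) (x : E m) {l : ℝ} (hl : 0 < l) (p : E m) :
    bco u x l (bpt u x l p) = p := by
  obtain ⟨-, h1, -⟩ := A0_facts m n u x _ le_rfl
  have h1' : A0 u x ((A0 u x).inverse p) = p := by
    have := congrArg (fun f : E m →L[ℝ] E m => f p) h1
    simpa using this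
  unfold bco bpt
  rw [add_sub_cancel_left, map_smul, h1', smul_smul, inv_mul_cancel₀ hl.ne', one_smul]

theorem t5_bpt_bco (u : E m → E n) (x : E m) {l : ℝ} (hl : 0 < l) (y : E m) :
    bpt u x l (bco u x l y) = y := by
  obtain ⟨-, -, h1, -⟩ := A0_facts m n u x _ le_rfl
  have h1' : (A0 u x).inverse (A0 u x (y - x)) = y - x := by
    have := congrArg (fun f : E m →L[ℝ] E m => f (y - x)) h1
    simpa using this
  unfold bco bpt
  rw [map_smul, h1', smul_smul, mul_inv_cancel₀ hl.ne', one_smul, add_sub_cancel]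

theorem t5_norm_le_bco (u : E m → E n) (x : E m) {l : ℝ} (hl : 0 < l) (y : E m) :
    ‖y - x‖ ≤ l * ‖bco u x l y‖ := by
  obtain ⟨-, -, -, h1, -⟩ := A0_facts m n u x _ le_rfl
  unfold bco
  rw [norm_smul, norm_inv, Real.norm_of_nonneg hl.le, ← mul_assoc, mul_inv_cancel₀ hl.ne', one_mul]
  exact h1 _

theorem t5_bco_le_norm (u : E m → E n) (x : E m) {l ε₀ : ℝ} (hl : 0 < l)
    (hε : ‖fderiv ℝ u x‖ ≤ ε₀) (y : E m) : l * ‖bco u x l y‖ ≤ (1 + ε₀) * ‖y - x‖ := by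
  obtain ⟨-, -, -, -, h1, -⟩ := A0_facts m n u x _ hε
  unfold bco
  rw [norm_smul, norm_inv, Real.norm_of_nonneg hl.le, ← mul_assoc, mul_inv_cancel₀ hl.ne', one_mul]
  exact h1 _

theorem t5_continuous_bco (u : E m → E n) (x : E m) (l : ℝ) : Continuous (bco u x l) := by
  unfold bco
  fun_prop

theorem t5_continuous_bpt (u : E m → E n) (x : E m) (l : ℝ) : Continuous (bpt u x l) := by
  unfold bpt
  fun_prop

theorem t5_supz_bdd (N : NCyl m n) (A : Set (E m)) :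
    BddAbove {t : ℝ | ∃ X ∈ N.W.support, X ∈ Cyl N.u N.Ω N.h ∧ npr N.u X ∈ A ∧ t = ‖zz N.u X‖} := by
  refine ⟨N.h, ?_⟩
  rintro t ⟨X, -, hX, -, rfl⟩
  exact hX.2.le

theorem t5_supz_mono (N : NCyl m n) {A B : Set (E m)} (h : A ⊆ B) : N.supz A ≤ N.supz B := by
  unfold NCyl.supz
  refine Real.sSup_le ?_ (supz_nonneg N B)
  rintro t ⟨X, h1, h2, h3, rfl⟩
  exact le_csSup (t5_supz_bdd N B) ⟨X, h1, h2, h h3, rfl⟩

theorem t5_supz_le_h (N : NCyl m n) (A : Set (E m)) : N.supz A ≤ N.h := by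
  unfold NCyl.supz
  refine Real.sSup_le ?_ (N.h'_pos.le.trans N.h'_lt.le)
  rintro t ⟨X, -, hX, -, rfl⟩
  exact hX.2.le

theorem t5_cellBase_subset (N : NCyl m n) (x : E m) {l : ℝ} (hl : 0 < l) (ρ : ℝ) :
    N.cellBase x l ρ ⊆ ball x (l * ρ) := by
  intro y hy
  have h1 : ‖bco N.u x l y‖ < ρ := by simpa [NCyl.cellBase] using hy
  rw [mem_ball, dist_eq_norm]
  exact (t5_norm_le_bco N.u x hl y).trans_lt (mul_lt_mul_of_pos_left h1 hl)

theorem t5_preimage_ball_subset (u : E m → E n) (x : E m) {l : ℝ} (hl : 0 < l) (ρ : ℝ) :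
    bco u x l ⁻¹' ball (0 : E m) ρ ⊆ ball x (l * ρ) := by
  intro y hy
  have h1 : ‖bco u x l y‖ < ρ := by simpa using hy
  rw [mem_ball, dist_eq_norm]
  exact (t5_norm_le_bco u x hl y).trans_lt (mul_lt_mul_of_pos_left h1 hl)

/-- construction of an admissible cell -/
theorem t5_cellHyp (N : NCyl m n) (x : E m) {l ρ ε₀ h₀ R : ℝ} (hu : RefGraph 5 1 ε₀ N.u)
    (h2 : ε₀ ≤ 1 / 2) (hh : N.h ≤ h₀) (hl : 0 < l) (hρ : 1 ≤ ρ) (hR : l * ρ ≤ R)
    (hΩ : closedBall x R ⊆ N.Ω) (hg : l + N.cellZ x l ρ ≤ 1) : CellHyp N x l ρ ε₀ h₀ :=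
  { geo := t5_geoS hu le_rfl h2
    h_le := hh
    l_pos := hl
    one_le_ρ := hρ
    room := fun y hy => hΩ (by
      rw [mem_closedBall, dist_eq_norm]
      exact ((t5_norm_le_bco N.u x hl y).trans (mul_le_mul_of_nonneg_left hy hl.le)).trans hR)
    gam_le := hg }

theorem t5_intM_const_mul (N : NCyl m n) (a : ℝ) (w : E m → ℝ) :
    N.intM (fun y => a * w y) = a * N.intM w := by
  unfold NCyl.intM
  rw [integral_const_mul, integral_const_mul]
  ring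

theorem t5_norm_bpt_sub_le (u : E m → E n) (x : E m) {l : ℝ} (hl : 0 < l) (p p' : E m) :
    ‖bpt u x l p - bpt u x l p'‖ ≤ l * ‖p - p'‖ := by
  have e : bpt u x l p - bpt u x l p' = bpt u x l (p - p') - x := by
    unfold bpt
    rw [map_sub, smul_sub]
    abel
  rw [e]
  have := t5_norm_le_bco u x hl (bpt u x l (p - p'))
  rwa [t5_bco_bpt u x hl] at this

theorem t5_continuous_of_lip {w : E m → ℝ} {L : ℝ} (hL : 0 ≤ L)
    (h : ∀ y y', |w y - w y'| ≤ L * ‖y - y'‖) : Continuous w := by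
  have : LipschitzWith ⟨L, hL⟩ w := LipschitzWith.of_dist_le_mul fun y y' => by
    rw [Real.dist_eq, dist_eq_norm]
    exact h y y'
  exact this.continuous

/-- [T5a] **signed excess for `K = 1`.** -/
theorem signed_excess_one (m n Q : ℕ) (hm : 1 ≤ m) (hn : 1 ≤ n) (hQ : 1 ≤ Q) (κ : ℝ) (hκ : 0 < κ) :
    ∃ (ε₀ h₀ CQ T₀ : ℝ) (ρ : ℝ → ℝ), 0 < ε₀ ∧ 0 < h₀ ∧ 0 < CQ ∧
      (∀ T, 0 ≤ ρ T) ∧
      (∀ a : ℕ, Filter.Tendsto (fun T : ℝ => T ^ a * ρ T) Filter.atTop (nhds 0)) ∧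
      ∀ N : NCyl m n, N.Q = Q → RefGraph 5 1 ε₀ N.u → N.h ≤ h₀ →
      ∀ (x : E m) (l T : ℝ), 0 < l → T₀ ≤ T → Metric.closedBall x (5 * l) ⊆ N.Ω →
        N.tau (Metric.ball x (5 * l)) ≤ ENNReal.ofReal (Real.exp (-T) * l ^ m) →
        l + N.supz (Metric.ball x (5 * l)) ≤ Real.exp (-(κ * T)) →
        ∀ w : E m → ℝ, (∀ y, 0 ≤ w y ∧ w y ≤ 1) → (∀ y y', |w y - w y'| ≤ l⁻¹ * ‖y - y'‖) →
          Function.support w ⊆ Metric.ball x l →
          2 * N.intM w - ∫ y, w y ∂N.Dm - CQ * ∫ y, w y ∂N.Lm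
            ≤ ρ T * Real.exp (-T) * l ^ m := by
  obtain ⟨εv, hv, Cg, hεv, hhv, hCg, Hv⟩ := sysOf_valid m n hm (17 / 4)
  obtain ⟨εi, hi, hεi, hhi, Hi⟩ := transfer_int m n hm (17 / 4)
  obtain ⟨εt, ht, hεt, hht, Ht⟩ := transfer_meas m n hm (17 / 4)
  obtain ⟨CQ, T0s, hCQ, Hs⟩ := Sx.signed m n hm Q hQ (κ / 2) Cg (by positivity)
  obtain ⟨hH, -⟩ := haarC_spec m
  obtain ⟨ε₀, hε₀⟩ : ∃ ε₀ : ℝ, ε₀ = min (min εv εi) (min εt (1 / 8)) := ⟨_, rfl⟩
  obtain ⟨h₀, hh₀⟩ : ∃ h₀ : ℝ, h₀ = min (min hv hi) ht := ⟨_, rfl⟩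
  obtain ⟨cH, hcH⟩ : ∃ cH : ℝ, cH = - Real.log (haarC m) := ⟨_, rfl⟩
  have hε0 : 0 < ε₀ := hε₀ ▸ lt_min (lt_min hεv hεi) (lt_min hεt (by norm_num))
  have hεv' : ε₀ ≤ εv := hε₀ ▸ (min_le_left _ _).trans (min_le_left _ _)
  have hεi' : ε₀ ≤ εi := hε₀ ▸ (min_le_left _ _).trans (min_le_right _ _)
  have hεt' : ε₀ ≤ εt := hε₀ ▸ (min_le_right _ _).trans (min_le_left _ _)
  have hε8 : ε₀ ≤ 1 / 8 := hε₀ ▸ (min_le_right _ _).trans (min_le_right _ _)
  have hh0 : 0 < h₀ := hh₀ ▸ lt_min (lt_min hhv hhi) hht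
  have hhv' : h₀ ≤ hv := hh₀ ▸ (min_le_left _ _).trans (min_le_left _ _)
  have hhi' : h₀ ≤ hi := hh₀ ▸ (min_le_left _ _).trans (min_le_right _ _)
  have hht' : h₀ ≤ ht := hh₀ ▸ min_le_right _ _
  refine ⟨ε₀, h₀, CQ, max (T0s + cH) (max (Real.log 2 / κ) (2 * Real.log 2 / κ - cH)),
    fun T => (1 + ε₀) ^ (m + 1) * Real.exp (-(Sx.FQ Q (T - cH))), hε0, hh0, hCQ,
    fun T => by positivity, fun a => ?_, ?_⟩
  · have := (FQ_rate Q cH a).const_mul ((1 + ε₀) ^ (m + 1))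
    rw [mul_zero] at this
    refine this.congr fun T => ?_
    ring
  intro N hNQ hu hh x l T hl hT hΩ hτ hγ w hw01 hwlip hwsupp
  obtain ⟨l', hl'⟩ : ∃ l' : ℝ, l' = (1 + ε₀) * l := ⟨_, rfl⟩
  have hl'0 : 0 < l' := by rw [hl']; positivity
  have hR : l' * (17 / 4) ≤ 5 * l := by rw [hl']; nlinarith
  have hT1 : T0s ≤ T - cH := by linarith [(le_max_left _ _).trans hT]
  have hT2 : Real.log 2 / κ ≤ T := ((le_max_left _ _).trans (le_max_right _ _)).trans hT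
  have hT3 : 2 * Real.log 2 / κ - cH ≤ T := ((le_max_right _ _).trans (le_max_right _ _)).trans hT
  have hlog : Real.log 2 ≤ κ * T := by
    rw [div_le_iff₀ hκ] at hT2
    linarith
  have h2exp : ∀ t : ℝ, 2 * Real.exp t = Real.exp (Real.log 2 + t) := fun t => by
    rw [Real.exp_add, Real.exp_log two_pos]
  have hexp1 : 2 * Real.exp (-(κ * T)) ≤ 1 := by
    rw [h2exp, ← Real.exp_zero]
    exact Real.exp_le_exp.2 (by linarith)
  have hexp2 : 2 * Real.exp (-(κ * T)) ≤ Real.exp (-(κ / 2) * (T - cH)) := by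
    rw [h2exp]
    apply Real.exp_le_exp.2
    have h3 : 2 * Real.log 2 / κ ≤ T + cH := by linarith
    rw [div_le_iff₀ hκ] at h3
    nlinarith
  have hcz : N.cellZ x l' (17 / 4) ≤ N.supz (ball x (5 * l)) :=
    t5_supz_mono N ((t5_cellBase_subset N x hl'0 _).trans (ball_subset_ball hR))
  have hγ' : l' + N.cellZ x l' (17 / 4) ≤ 2 * Real.exp (-(κ * T)) := by
    have h0 := supz_nonneg N (ball x (5 * l))
    have a1 : ε₀ * l ≤ 1 * l := mul_le_mul_of_nonneg_right (by linarith) hl.le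
    have a2 : l' ≤ 2 * l := by rw [hl']; linarith
    linarith
  have hcell : CellHyp N x l' (17 / 4) ε₀ h₀ :=
    t5_cellHyp N x hu (by linarith) hh hl'0 (by norm_num) hR hΩ (hγ'.trans hexp1)
  have hvalid : (N.sysOf x l' (17 / 4) Cg).Valid := Hv N x l' _ (hcell.mono hεv' hhv') le_rfl
  have hexpc : Real.exp (-(T - cH)) = Real.exp (-T) * (haarC m)⁻¹ := by
    rw [neg_sub, sub_eq_add_neg, Real.exp_add, hcH, Real.exp_neg (Real.log _), Real.exp_log hH, mul_comm]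
  have hpow : l ^ m ≤ l' ^ m := pow_le_pow_left₀ hl.le (by rw [hl']; nlinarith) m
  have hsmall : (N.sysOf x l' (17 / 4) Cg).tau Q (ball (0 : E m) 4)
      ≤ ENNReal.ofReal (Real.exp (-(T - cH))) := by
    obtain ⟨-, -, tD, tL, tM⟩ := Ht N x l' (17 / 4) Cg (hcell.mono hεt' hht') le_rfl (ball 0 4)
      measurableSet_ball (ball_subset_ball (by norm_num))
    have e1 : (N.sysOf x l' (17 / 4) Cg).tau Q (ball (0 : E m) 4)
        = (ENNReal.ofReal (haarC m * l' ^ m))⁻¹ * N.tau (bco N.u x l' ⁻¹' ball 0 4) := by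
      unfold Sx.Sys.tau NCyl.tau
      rw [Measure.add_apply, Measure.add_apply, Measure.add_apply, Measure.add_apply, ← hNQ, tD, tL, tM]
      ring
    have hsub : bco N.u x l' ⁻¹' ball (0 : E m) 4 ⊆ ball x (5 * l) :=
      (t5_preimage_ball_subset N.u x hl'0 4).trans (ball_subset_ball (by nlinarith))
    rw [e1]
    calc (ENNReal.ofReal (haarC m * l' ^ m))⁻¹ * N.tau (bco N.u x l' ⁻¹' ball 0 4)
        ≤ (ENNReal.ofReal (haarC m * l' ^ m))⁻¹ * ENNReal.ofReal (Real.exp (-T) * l ^ m) :=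
          mul_le_mul_right ((measure_mono hsub).trans hτ) _
      _ = ENNReal.ofReal ((haarC m * l' ^ m)⁻¹ * (Real.exp (-T) * l ^ m)) := by
          rw [← ENNReal.ofReal_inv_of_pos (by positivity), ← ENNReal.ofReal_mul (by positivity)]
      _ ≤ ENNReal.ofReal (Real.exp (-(T - cH))) := by
          apply ENNReal.ofReal_le_ofReal
          rw [hexpc, mul_inv, mul_assoc, mul_comm (haarC m)⁻¹]
          have h1 : (l' ^ m)⁻¹ * (Real.exp (-T) * l ^ m) ≤ Real.exp (-T) := by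
            rw [inv_mul_le_iff₀ (by positivity), mul_comm (l' ^ m)]
            exact mul_le_mul_of_nonneg_left hpow (Real.exp_pos _).le
          exact mul_le_mul_of_nonneg_right h1 (inv_pos.2 hH).le
  have hyp : Sx.SignedHyp (N.sysOf x l' (17 / 4) Cg) Q (κ / 2) Cg (T - cH) :=
    { valid := hvalid
      Cg_le := le_rfl
      room := ball_subset_ball (by norm_num)
      small := hsmall
      geom := hγ'.trans hexp2 }
  -- the weight
  obtain ⟨w', hw'⟩ : ∃ w' : E m → ℝ, w' = fun p => (1 + ε₀)⁻¹ * w (bpt N.u x l' p) := ⟨_, rfl⟩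
  have hinv1 : (1 + ε₀)⁻¹ ≤ 1 := inv_le_one_of_one_le₀ (by linarith)
  have hinv0 : 0 < (1 + ε₀)⁻¹ := by positivity
  have hsupp' : Function.support w' ⊆ ball (0 : E m) 1 := by
    intro p hp
    have h1 : w (bpt N.u x l' p) ≠ 0 := by
      intro h0
      apply hp
      rw [hw']
      simp [h0]
    have h2 : ‖bpt N.u x l' p - x‖ < l := by
      have := hwsupp h1
      rwa [mem_ball, dist_eq_norm] at this
    have h3 := t5_bco_le_norm N.u x hl'0 (hu.slope x) (bpt N.u x l' p)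
    rw [t5_bco_bpt N.u x hl'0] at h3
    have h4 : l' * ‖p‖ < l' * 1 := by
      rw [mul_one]
      calc l' * ‖p‖ ≤ (1 + ε₀) * ‖bpt N.u x l' p - x‖ := h3
        _ < (1 + ε₀) * l := mul_lt_mul_of_pos_left h2 (by positivity)
        _ = l' := hl'.symm
    have h5 := lt_of_mul_lt_mul_left h4 hl'0.le
    simpa using h5
  have hW : Sx.IsWeight w' 0 1 :=
    { nonneg := fun p => by rw [hw']; exact mul_nonneg hinv0.le (hw01 _).1
      le_one := fun p => by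
        rw [hw']
        exact mul_le_one₀ hinv1 (hw01 _).1 (hw01 _).2
      lip := fun p p' => by
        rw [hw']
        simp only
        rw [← mul_sub, abs_mul, abs_of_pos hinv0, inv_one, one_mul]
        have h1 := hwlip (bpt N.u x l' p) (bpt N.u x l' p')
        have h2 := t5_norm_bpt_sub_le N.u x hl'0 p p'
        calc (1 + ε₀)⁻¹ * |w (bpt N.u x l' p) - w (bpt N.u x l' p')|
            ≤ (1 + ε₀)⁻¹ * (l⁻¹ * (l' * ‖p - p'‖)) := by
              refine mul_le_mul_of_nonneg_left (h1.trans ?_) hinv0.le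
              exact mul_le_mul_of_nonneg_left h2 (inv_pos.2 hl).le
          _ = ‖p - p'‖ := by
              rw [hl']
              field_simp
      supp := hsupp' }
  have hwc : Continuous w := t5_continuous_of_lip (inv_pos.2 hl).le hwlip
  have hw'm : Measurable w' := by
    rw [hw']
    exact (continuous_const.mul (hwc.comp (t5_continuous_bpt N.u x l'))).measurable
  have hw'van : ∀ p, p ∉ ball (0 : E m) (17 / 4) → w' p = 0 := by
    intro p hp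
    by_contra h0
    exact hp (ball_subset_ball (by norm_num) (hsupp' h0))
  have hpt : ∀ y, w' (bco N.u x l' y) = (1 + ε₀)⁻¹ * w y := fun y => by
    rw [hw']
    simp only
    rw [t5_bpt_bco N.u x hl'0]
  obtain ⟨tI, tD, tL⟩ := Hi N x l' (17 / 4) Cg (hcell.mono hεi' hhi') le_rfl w' hw'm hw'van
  have hcomp : w' ∘ bco N.u x l' = fun y => (1 + ε₀)⁻¹ * w y := funext hpt
  rw [hcomp, t5_intM_const_mul, hNQ] at tI
  rw [show (fun y => w' (bco N.u x l' y)) = fun y => (1 + ε₀)⁻¹ * w y from funext hpt,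
    integral_const_mul] at tD tL
  have hfin := Hs _ (T - cH) hT1 hyp w' hW
  unfold Sx.Sys.intL at hfin
  rw [tI, tD, tL, hexpc] at hfin
  have hpos : 0 < haarC m * l' ^ m * (1 + ε₀) := by positivity
  have hX : (haarC m * l' ^ m)⁻¹ * ((1 + ε₀)⁻¹ *
      (2 * N.intM w - ∫ y, w y ∂N.Dm - CQ * ∫ y, w y ∂N.Lm))
      ≤ Real.exp (-(Sx.FQ Q (T - cH))) * (Real.exp (-T) * (haarC m)⁻¹) := by
    refine le_trans (le_of_eq ?_) hfin
    ring
  calc 2 * N.intM w - ∫ y, w y ∂N.Dm - CQ * ∫ y, w y ∂N.Lm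
      = (haarC m * l' ^ m * (1 + ε₀)) * ((haarC m * l' ^ m)⁻¹ * ((1 + ε₀)⁻¹ *
          (2 * N.intM w - ∫ y, w y ∂N.Dm - CQ * ∫ y, w y ∂N.Lm))) := by
        field_simp
    _ ≤ (haarC m * l' ^ m * (1 + ε₀)) *
          (Real.exp (-(Sx.FQ Q (T - cH))) * (Real.exp (-T) * (haarC m)⁻¹)) :=
        mul_le_mul_of_nonneg_left hX hpos.le
    _ = (1 + ε₀) ^ (m + 1) * Real.exp (-(Sx.FQ Q (T - cH))) * Real.exp (-T) * l ^ m := by
        rw [hl', mul_pow]
        field_simp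
        ring

/-! ### helpers for T5b -/

/-- the same cylinder with another reference count -/
def NCyl.withQ (N : NCyl m n) (q : ℕ) (hq : 1 ≤ q) : NCyl m n := { N with Q := q, Q_pos := hq }

set_option maxRecDepth 100000 in
theorem t5_sysOf_withQ (N : NCyl m n) (q : ℕ) (hq : 1 ≤ q) (x : E m) (l ρ Cg : ℝ) :
    (N.withQ q hq).sysOf x l ρ Cg = N.sysOf x l ρ Cg := rfl

theorem t5_cellHyp_withQ {N : NCyl m n} (q : ℕ) (hq : 1 ≤ q) {x : E m} {l ρ ε₀ h₀ : ℝ}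
    (h : CellHyp N x l ρ ε₀ h₀) : CellHyp (N.withQ q hq) x l ρ ε₀ h₀ :=
  ⟨h.geo, h.h_le, h.l_pos, h.one_le_ρ, h.room, h.gam_le⟩

theorem t5_intM_withQ (N : NCyl m n) (q : ℕ) (hq : 1 ≤ q) (η : E m → ℝ) :
    (N.withQ q hq).intM η = ∫ y, η y ∂N.nu - q * ∫ y, η y ∂N.volS := rfl

/-- `transfer_int` for an arbitrary integer in place of `N.Q`. -/
theorem t5_intM_any {ρm εi hi : ℝ}
    (Hi : ∀ (N : NCyl m n) (x₀ : E m) (l ρ Cg : ℝ), CellHyp N x₀ l ρ εi hi → ρ ≤ ρm →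
      ∀ w : E m → ℝ, Measurable w → (∀ p, p ∉ ball (0 : E m) ρ → w p = 0) →
      (N.sysOf x₀ l ρ Cg).intM N.Q w = (haarC m * l ^ m)⁻¹ * N.intM (w ∘ bco N.u x₀ l) ∧
      (N.sysOf x₀ l ρ Cg).intD w = (haarC m * l ^ m)⁻¹ * ∫ y, w (bco N.u x₀ l y) ∂N.Dm ∧
      (N.sysOf x₀ l ρ Cg).intLam w = (haarC m * l ^ m)⁻¹ * ∫ y, w (bco N.u x₀ l y) ∂N.Lm)
    (N : NCyl m n) (x₀ : E m) (l ρ Cg : ℝ) (hc : CellHyp N x₀ l ρ εi hi) (hρ : ρ ≤ ρm)
    (w : E m → ℝ) (hw : Measurable w) (hv : ∀ p, p ∉ ball (0 : E m) ρ → w p = 0) (q : ℕ) :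
    (N.sysOf x₀ l ρ Cg).intM q w = (haarC m * l ^ m)⁻¹ *
      (∫ y, (w ∘ bco N.u x₀ l) y ∂N.nu - q * ∫ y, (w ∘ bco N.u x₀ l) y ∂N.volS) := by
  have h1 := (Hi (N.withQ 1 le_rfl) x₀ l ρ Cg (t5_cellHyp_withQ 1 le_rfl hc) hρ w hw hv).1
  have h2 := (Hi (N.withQ 2 (by norm_num)) x₀ l ρ Cg (t5_cellHyp_withQ 2 (by norm_num) hc) hρ w hw hv).1
  rw [t5_sysOf_withQ, t5_intM_withQ] at h1 h2
  change (N.sysOf x₀ l ρ Cg).intM 1 w = _ at h1
  change (N.sysOf x₀ l ρ Cg).intM 2 w = _ at h2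
  change _ = (haarC m * l ^ m)⁻¹ * (∫ y, (w ∘ bco N.u x₀ l) y ∂N.nu
    - ((1 : ℕ) : ℝ) * ∫ y, (w ∘ bco N.u x₀ l) y ∂N.volS) at h1
  change _ = (haarC m * l ^ m)⁻¹ * (∫ y, (w ∘ bco N.u x₀ l) y ∂N.nu
    - ((2 : ℕ) : ℝ) * ∫ y, (w ∘ bco N.u x₀ l) y ∂N.volS) at h2
  unfold Sx.Sys.intM at h1 h2 ⊢
  push_cast at h1 h2
  generalize (∫ q, w q.1 ∂(N.sysOf x₀ l ρ Cg).μ) = a at *
  generalize (∫ y in (N.sysOf x₀ l ρ Cg).Ω, w y * (N.sysOf x₀ l ρ Cg).a y) = b at *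
  generalize (∫ y, (w ∘ bco N.u x₀ l) y ∂N.nu) = I at *
  generalize (∫ y, (w ∘ bco N.u x₀ l) y ∂N.volS) = V at *
  generalize (haarC m * l ^ m)⁻¹ = c at *
  have hb : b = c * V := by linarith
  have ha : a = c * I := by linarith
  rw [ha, hb]
  ring

/-- the measure identity of `transfer_meas` as an inequality for arbitrary sets. -/
theorem t5_outer {μ₁ μ₂ : Measure (E m)} {β : E m → E m} {cc : ℝ≥0∞} {ρ : ℝ} (hc0 : cc ≠ 0) (hct : cc ≠ ⊤)
    (h : ∀ A : Set (E m), MeasurableSet A → A ⊆ ball (0 : E m) ρ → μ₁ A = cc⁻¹ * μ₂ (β ⁻¹' A))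
    (A : Set (E m)) (hA : A ⊆ ball (0 : E m) ρ) : μ₂ (β ⁻¹' A) ≤ cc * μ₁ A := by
  have hB : MeasurableSet (toMeasurable μ₁ A ∩ ball (0 : E m) ρ) :=
    (measurableSet_toMeasurable _ _).inter measurableSet_ball
  have h1 := h _ hB inter_subset_right
  have h2 : μ₁ (toMeasurable μ₁ A ∩ ball (0 : E m) ρ) ≤ μ₁ A :=
    (measure_mono inter_subset_left).trans (measure_toMeasurable A).le
  have h3 : A ⊆ toMeasurable μ₁ A ∩ ball (0 : E m) ρ := subset_inter (subset_toMeasurable _ _) hA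
  calc μ₂ (β ⁻¹' A) ≤ μ₂ (β ⁻¹' (toMeasurable μ₁ A ∩ ball (0 : E m) ρ)) :=
        measure_mono (preimage_mono h3)
    _ = cc * (cc⁻¹ * μ₂ (β ⁻¹' (toMeasurable μ₁ A ∩ ball (0 : E m) ρ))) := by
        rw [← mul_assoc, ENNReal.mul_inv_cancel hc0 hct, one_mul]
    _ = cc * μ₁ (toMeasurable μ₁ A ∩ ball (0 : E m) ρ) := by rw [h1]
    _ ≤ cc * μ₁ A := mul_le_mul_right h2 _

/-- scaled `C³` bounds in the chart -/
theorem t5_ckb (u : E m → E n) (x : E m) {l s lam A : ℝ} (hl : 0 < l) (hls : l = lam * s) (hlam : 1 ≤ lam)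
    (hs : 0 < s) {η : E m → ℝ} (hη : ContDiff ℝ 3 η)
    (hb : ∀ j : ℕ, j ≤ 3 → ∀ y, s ^ j * ‖iteratedFDeriv ℝ j η y‖ ≤ A) :
    Sx.CkB 3 1 (lam ^ 3 * A) (η ∘ bpt u x l) := by
  set L : E m →L[ℝ] E m := l • (A0 u x).inverse with hL
  have hcomp : η ∘ bpt u x l = (fun z => η (x + z)) ∘ L := by
    funext p
    simp [bpt, hL]
  have hη' : ContDiff ℝ 3 (fun z => η (x + z)) := hη.comp (contDiff_const.add contDiff_id)
  have hLn : ‖L‖ ≤ l := by
    refine ContinuousLinearMap.opNorm_le_bound _ hl.le fun p => ?_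
    have h1 := t5_norm_le_bco u x hl (bpt u x l p)
    rw [t5_bco_bpt u x hl] at h1
    have e : L p = bpt u x l p - x := by simp [bpt, hL]
    rw [e]
    exact h1
  have hA : 0 ≤ A := by
    have := hb 0 (by norm_num) x
    simp only [pow_zero, one_mul] at this
    exact (norm_nonneg _).trans this
  refine ⟨by rw [hcomp]; exact hη'.comp L.contDiff, fun j hj p => ?_⟩
  rw [hcomp, L.iteratedFDeriv_comp_right hη' p (by exact_mod_cast hj), iteratedFDeriv_comp_add_left,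
    one_pow, one_mul]
  calc ‖(iteratedFDeriv ℝ j η (x + L p)).compContinuousLinearMap fun _ => L‖
      ≤ ‖iteratedFDeriv ℝ j η (x + L p)‖ * ∏ _i : Fin j, ‖L‖ :=
        ContinuousMultilinearMap.norm_compContinuousLinearMap_le _ _
    _ = ‖iteratedFDeriv ℝ j η (x + L p)‖ * ‖L‖ ^ j := by
        rw [Finset.prod_const, Finset.card_univ, Fintype.card_fin]
    _ ≤ ‖iteratedFDeriv ℝ j η (x + L p)‖ * l ^ j :=
        mul_le_mul_of_nonneg_left (pow_le_pow_left₀ (norm_nonneg _) hLn j) (norm_nonneg _)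
    _ = lam ^ j * (s ^ j * ‖iteratedFDeriv ℝ j η (x + L p)‖) := by
        rw [hls, mul_pow]
        ring
    _ ≤ lam ^ j * A := mul_le_mul_of_nonneg_left (hb j hj _) (by positivity)
    _ ≤ lam ^ 3 * A := mul_le_mul_of_nonneg_right (pow_le_pow_right₀ hlam hj) hA

set_option maxHeartbeats 1000000 in
/-- [T5b] **scalar estimate for `K = 1`** (chart scale `l = (1 + ε₀ (1 + c)) s`, chart radius `c / (1 + ε₀ (1 + c))`). -/
theorem scalar_input_one (m n : ℕ) (hm : 1 ≤ m) (hn : 1 ≤ n) (C₀ c : ℝ) (hc : 1 < c) :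
    ∃ ε₀ h₀ εs C : ℝ, 0 < ε₀ ∧ 0 < h₀ ∧ 0 < εs ∧ 0 < C ∧
      ∀ N : NCyl m n, RefGraph 5 1 ε₀ N.u → N.h ≤ h₀ →
      ∀ (x : E m) (s ε : ℝ), 0 < s → s ≤ 1 / 2 → Metric.closedBall x (c * s) ⊆ N.Ω →
        N.nu (Metric.ball x (c * s)) ≤ ENNReal.ofReal (C₀ * s ^ m) →
        (N.Dm + N.Lm) (Metric.ball x (c * s)) ≤ ENNReal.ofReal (ε * s ^ m) → 0 ≤ ε → ε ≤ εs →
        ∃ q : ℕ,
          N.volS {y | y ∈ Metric.ball x ((1 + c) / 2 * s) ∧ N.cnt y ≠ q}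
            ≤ ENNReal.ofReal (C * ε * s ^ m) ∧
          (∀ (η : E m → ℝ) (A : ℝ), ContDiff ℝ 3 η →
            tsupport η ⊆ Metric.ball x ((1 + c) / 2 * s) →
            (∀ j : ℕ, j ≤ 3 → ∀ y, s ^ j * ‖iteratedFDeriv ℝ j η y‖ ≤ A) →
            |∫ y, η y ∂N.nu - q * ∫ y, η y ∂N.volS| ≤ C * ε * s ^ m * A) ∧
          (q = N.Q →
            N.Mabs (Metric.ball x s) + N.volS {y | y ∈ Metric.ball x s ∧ N.cnt y ≠ N.Q}
              ≤ ENNReal.ofReal C * (N.Dm + N.Lm) (Metric.ball x (c * s))) := by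
  obtain ⟨εv, hv, Cg, hεv, hhv, hCg, Hv⟩ := sysOf_valid m n hm c
  obtain ⟨εi, hi, hεi, hhi, Hi⟩ := transfer_int m n hm c
  obtain ⟨εt, ht, hεt, hht, Ht⟩ := transfer_meas m n hm c
  obtain ⟨εc, hcn, hεc, hhc, Hc⟩ := transfer_count m n hm c
  obtain ⟨hH, hHaar⟩ := haarC_spec m
  have hc0 : 0 < 1 + c := by linarith
  obtain ⟨ε₀, hε₀⟩ : ∃ ε₀ : ℝ, ε₀ = min (min (min εv εi) (min εt εc))
      (min (1 / (2 * (1 + c))) ((c - 1) / (2 * (1 + c)))) := ⟨_, rfl⟩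
  obtain ⟨h₀, hh₀⟩ : ∃ h₀ : ℝ, h₀ = min (min (min hv hi) (min ht hcn)) (1 / 4) := ⟨_, rfl⟩
  have hε0 : 0 < ε₀ := hε₀ ▸ lt_min (lt_min (lt_min hεv hεi) (lt_min hεt hεc))
    (lt_min (by positivity) (div_pos (by linarith) (by positivity)))
  have hεv' : ε₀ ≤ εv := hε₀ ▸ ((min_le_left _ _).trans (min_le_left _ _)).trans (min_le_left _ _)
  have hεi' : ε₀ ≤ εi := hε₀ ▸ ((min_le_left _ _).trans (min_le_left _ _)).trans (min_le_right _ _)
  have hεt' : ε₀ ≤ εt := hε₀ ▸ ((min_le_left _ _).trans (min_le_right _ _)).trans (min_le_left _ _)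
  have hεc' : ε₀ ≤ εc := hε₀ ▸ ((min_le_left _ _).trans (min_le_right _ _)).trans (min_le_right _ _)
  have hεa : ε₀ ≤ 1 / (2 * (1 + c)) := hε₀ ▸ (min_le_right _ _).trans (min_le_left _ _)
  have hεb : ε₀ ≤ (c - 1) / (2 * (1 + c)) := hε₀ ▸ (min_le_right _ _).trans (min_le_right _ _)
  have hh0 : 0 < h₀ := hh₀ ▸ lt_min (lt_min (lt_min hhv hhi) (lt_min hht hhc)) (by norm_num)
  have hhv' : h₀ ≤ hv := hh₀ ▸ ((min_le_left _ _).trans (min_le_left _ _)).trans (min_le_left _ _)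
  have hhi' : h₀ ≤ hi := hh₀ ▸ ((min_le_left _ _).trans (min_le_left _ _)).trans (min_le_right _ _)
  have hht' : h₀ ≤ ht := hh₀ ▸ ((min_le_left _ _).trans (min_le_right _ _)).trans (min_le_left _ _)
  have hhc' : h₀ ≤ hcn := hh₀ ▸ ((min_le_left _ _).trans (min_le_right _ _)).trans (min_le_right _ _)
  have hh4 : h₀ ≤ 1 / 4 := hh₀ ▸ min_le_right _ _
  obtain ⟨lam, hlam⟩ : ∃ lam : ℝ, lam = 1 + ε₀ * (1 + c) := ⟨_, rfl⟩
  have hεa' : ε₀ * (1 + c) ≤ 1 / 2 := by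
    rw [le_div_iff₀ (by positivity)] at hεa
    linarith
  have hεb' : ε₀ * (1 + c) ≤ (c - 1) / 2 := by
    rw [le_div_iff₀ (by positivity)] at hεb
    linarith
  have hlam1 : 1 ≤ lam := by rw [hlam]; nlinarith
  have hlam0 : 0 < lam := by linarith
  have hlam32 : lam ≤ 3 / 2 := by rw [hlam]; linarith
  have hlamc : lam < c := by rw [hlam]; linarith
  have hε2 : ε₀ ≤ 1 / 2 := by nlinarith
  have hl3 : 0 < lam ^ 3 := pow_pos hlam0 3
  have hone : (1 : ℝ) ≤ lam ^ 3 + 2 := by linarith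
  obtain ⟨c', hc'⟩ : ∃ c' : ℝ, c' = c / lam := ⟨_, rfl⟩
  have hc'1 : 1 < c' := by rw [hc', lt_div_iff₀ hlam0]; linarith
  have hc'c : c' ≤ c := by rw [hc']; exact div_le_self (by linarith) hlam1
  obtain ⟨Cs, εS, hCs, hεS, Hs⟩ := Sx.scalar m n hm Cg (C₀ / (haarC m * lam ^ m)) c' hc'1
  refine ⟨ε₀, h₀, εS * (haarC m * lam ^ m), Cs * (lam ^ 3 + 2), hε0, hh0, by positivity, by positivity, ?_⟩
  intro N hu hh x s ε hs hs2 hΩ hν hDL hεnn hεs
  obtain ⟨l, hl⟩ : ∃ l : ℝ, l = lam * s := ⟨_, rfl⟩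
  have hl0 : 0 < l := by rw [hl]; positivity
  have hlc : l * c' = c * s := by rw [hl, hc']; field_simp
  have hg : l + N.cellZ x l c' ≤ 1 := by
    have h1 : N.cellZ x l c' ≤ N.h := t5_supz_le_h N _
    have h2 : l ≤ 3 / 4 := by rw [hl]; nlinarith
    linarith
  have hcell : CellHyp N x l c' ε₀ h₀ := t5_cellHyp N x hu hε2 hh hl0 hc'1.le hlc.le hΩ hg
  have hvalid : (N.sysOf x l c' Cg).Valid := Hv N x l c' (hcell.mono hεv' hhv') hc'c
  have HtA := Ht N x l c' Cg (hcell.mono hεt' hht') hc'c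
  have hHl : 0 < haarC m * l ^ m := by positivity
  have hcc0 : ENNReal.ofReal (haarC m * l ^ m) ≠ 0 := (ENNReal.ofReal_pos.2 hHl).ne'
  have hcct : ENNReal.ofReal (haarC m * l ^ m) ≠ ⊤ := ENNReal.ofReal_ne_top
  have hpre : bco N.u x l ⁻¹' ball (0 : E m) c' ⊆ ball x (c * s) := by
    have := t5_preimage_ball_subset N.u x hl0 c'
    rwa [hlc] at this
  have hcc_mul : ∀ t : ℝ, (ENNReal.ofReal (haarC m * l ^ m))⁻¹ * ENNReal.ofReal (t * s ^ m)
      = ENNReal.ofReal (t / (haarC m * lam ^ m)) := by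
    intro t
    rw [← ENNReal.ofReal_inv_of_pos hHl, ← ENNReal.ofReal_mul (by positivity)]
    congr 1
    rw [hl, mul_pow]
    field_simp
  obtain ⟨tν, -, tD, tL, -⟩ := HtA (ball 0 c') measurableSet_ball subset_rfl
  have hSDL : ((N.sysOf x l c' Cg).Dm + (N.sysOf x l c' Cg).Lm) (ball (0 : E m) (c' * 1))
      ≤ (ENNReal.ofReal (haarC m * l ^ m))⁻¹ * (N.Dm + N.Lm) (ball x (c * s)) := by
    rw [mul_one, Measure.add_apply, Measure.add_apply, tD, tL, ← mul_add]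
    exact mul_le_mul_right (add_le_add (measure_mono hpre) (measure_mono hpre)) _
  have hSDL2 : ((N.sysOf x l c' Cg).Dm + (N.sysOf x l c' Cg).Lm) (ball (0 : E m) (c' * 1))
      ≤ ENNReal.ofReal (ε / (haarC m * lam ^ m)) := by
    rw [← hcc_mul]
    exact hSDL.trans (mul_le_mul_right hDL _)
  obtain ⟨q, k1, k2, k3⟩ := Hs (N.sysOf x l c' Cg) hvalid le_rfl 0 1 one_pos le_rfl
    (by rw [mul_one]; exact subset_rfl)
    (by
      rw [mul_one, one_pow, mul_one, tν, ← hcc_mul]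
      exact mul_le_mul_right ((measure_mono hpre).trans hν) _)
    (by
      refine hSDL2.trans (ENNReal.ofReal_le_ofReal ?_)
      rw [one_pow, mul_one, div_le_iff₀ (by positivity)]
      exact hεs)
  -- comparison of the radii
  have hmid : ∀ y, ‖y - x‖ < (1 + c) / 2 * s → ‖bco N.u x l y‖ < (1 + c') / 2 * 1 := by
    intro y hy
    have h1 := t5_bco_le_norm N.u x hl0 (hu.slope x) y
    have h2 : l * ‖bco N.u x l y‖ < l * ((1 + c') / 2 * 1) := by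
      calc l * ‖bco N.u x l y‖ ≤ (1 + ε₀) * ‖y - x‖ := h1
        _ < (1 + ε₀) * ((1 + c) / 2 * s) := mul_lt_mul_of_pos_left hy (by positivity)
        _ = (l + l * c') / 2 := by rw [hlc, hl, hlam]; ring
        _ = l * ((1 + c') / 2 * 1) := by ring
    exact lt_of_mul_lt_mul_left h2 hl0.le
  have hin : ∀ y, ‖y - x‖ < s → ‖bco N.u x l y‖ < 1 := by
    intro y hy
    have h1 := t5_bco_le_norm N.u x hl0 (hu.slope x) y
    have h2 : l * ‖bco N.u x l y‖ < l * 1 := by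
      calc l * ‖bco N.u x l y‖ ≤ (1 + ε₀) * ‖y - x‖ := h1
        _ < (1 + ε₀) * s := mul_lt_mul_of_pos_left hy (by positivity)
        _ ≤ lam * s := mul_le_mul_of_nonneg_right (by rw [hlam]; nlinarith) hs.le
        _ = l * 1 := by rw [hl, mul_one]
    exact lt_of_mul_lt_mul_left h2 hl0.le
  have hmc : (1 + c') / 2 * 1 ≤ c' := by linarith
  have hsmid : s ≤ (1 + c) / 2 * s := by
    have : 1 * s ≤ (1 + c) / 2 * s := mul_le_mul_of_nonneg_right (by linarith) hs.le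
    linarith
  -- cancellation of the normalising constant
  have hcancel : ∀ t : ℝ≥0∞, ENNReal.ofReal (haarC m * l ^ m) * (ENNReal.ofReal Cs *
      ((ENNReal.ofReal (haarC m * l ^ m))⁻¹ * t)) = ENNReal.ofReal Cs * t := by
    intro t
    rw [mul_left_comm, ← mul_assoc (ENNReal.ofReal (haarC m * l ^ m)),
      ENNReal.mul_inv_cancel hcc0 hcct, one_mul]
  -- first conclusion, in the sharp form
  have K1 : N.volS {y | y ∈ ball x ((1 + c) / 2 * s) ∧ N.cnt y ≠ q}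
      ≤ ENNReal.ofReal Cs * (N.Dm + N.Lm) (ball x (c * s)) := by
    have hA : {p | p ∈ ball (0 : E m) ((1 + c') / 2 * 1) ∧ (N.sysOf x l c' Cg).N p ≠ q}
        ⊆ ball (0 : E m) c' := fun p hp => ball_subset_ball hmc hp.1
    have hBad : (μH[(m : ℝ)] : Measure (E m)) {y | ¬ (y ∈ N.cellBase x l c' →
        N.cnt y = ((N.sysOf x l c' Cg).N (bco N.u x l y) : ℝ≥0∞))} = 0 :=
      ae_iff.1 (Hc N x l c' Cg (hcell.mono hεc' hhc') hc'c)
    have hac : N.volS ≪ (μH[(m : ℝ)] : Measure (E m)) :=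
      (withDensity_absolutelyContinuous _ _).trans Measure.restrict_le_self.absolutelyContinuous
    have hsub : {y | y ∈ ball x ((1 + c) / 2 * s) ∧ N.cnt y ≠ q} ⊆
        bco N.u x l ⁻¹' {p | p ∈ ball (0 : E m) ((1 + c') / 2 * 1) ∧ (N.sysOf x l c' Cg).N p ≠ q} ∪
          {y | ¬ (y ∈ N.cellBase x l c' →
            N.cnt y = ((N.sysOf x l c' Cg).N (bco N.u x l y) : ℝ≥0∞))} := by
      rintro y ⟨hy1, hy2⟩
      rw [mem_ball, dist_eq_norm] at hy1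
      have hy3 := hmid y hy1
      by_cases hb : y ∈ N.cellBase x l c' →
          N.cnt y = ((N.sysOf x l c' Cg).N (bco N.u x l y) : ℝ≥0∞)
      · left
        refine ⟨by simpa using hy3, fun hq => hy2 ?_⟩
        rw [hb (by
          show bco N.u x l y ∈ ball (0 : E m) c'
          simpa using hy3.trans_le hmc), hq]
      · right
        exact hb
    calc N.volS {y | y ∈ ball x ((1 + c) / 2 * s) ∧ N.cnt y ≠ q}
        ≤ N.volS (bco N.u x l ⁻¹' {p | p ∈ ball (0 : E m) ((1 + c') / 2 * 1) ∧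
            (N.sysOf x l c' Cg).N p ≠ q}) + N.volS {y | ¬ (y ∈ N.cellBase x l c' →
            N.cnt y = ((N.sysOf x l c' Cg).N (bco N.u x l y) : ℝ≥0∞))} :=
          (measure_mono hsub).trans (measure_union_le _ _)
      _ = N.volS (bco N.u x l ⁻¹' {p | p ∈ ball (0 : E m) ((1 + c') / 2 * 1) ∧
            (N.sysOf x l c' Cg).N p ≠ q}) := by rw [hac hBad, add_zero]
      _ ≤ ENNReal.ofReal (haarC m * l ^ m) * (N.sysOf x l c' Cg).volS
            {p | p ∈ ball (0 : E m) ((1 + c') / 2 * 1) ∧ (N.sysOf x l c' Cg).N p ≠ q} :=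
          t5_outer hcc0 hcct (fun A hA1 hA2 => (HtA A hA1 hA2).2.1) _ hA
      _ ≤ ENNReal.ofReal (haarC m * l ^ m) * (ENNReal.ofReal Cs *
            ((ENNReal.ofReal (haarC m * l ^ m))⁻¹ * (N.Dm + N.Lm) (ball x (c * s)))) :=
          mul_le_mul_right (k1.trans (mul_le_mul_right hSDL _)) _
      _ = ENNReal.ofReal Cs * (N.Dm + N.Lm) (ball x (c * s)) := hcancel _
  have hεsm : 0 ≤ ε * s ^ m := by positivity
  refine ⟨q, ?_, ?_, ?_⟩
  · calc N.volS {y | y ∈ ball x ((1 + c) / 2 * s) ∧ N.cnt y ≠ q}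
        ≤ ENNReal.ofReal Cs * (N.Dm + N.Lm) (ball x (c * s)) := K1
      _ ≤ ENNReal.ofReal Cs * ENNReal.ofReal (ε * s ^ m) := mul_le_mul_right hDL _
      _ = ENNReal.ofReal (Cs * (ε * s ^ m)) := (ENNReal.ofReal_mul hCs.le).symm
      _ ≤ ENNReal.ofReal (Cs * (lam ^ 3 + 2) * ε * s ^ m) := by
          apply ENNReal.ofReal_le_ofReal
          have h1 : Cs * 1 ≤ Cs * (lam ^ 3 + 2) :=
            mul_le_mul_of_nonneg_left hone hCs.le
          calc Cs * (ε * s ^ m) = Cs * 1 * (ε * s ^ m) := by ring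
            _ ≤ Cs * (lam ^ 3 + 2) * (ε * s ^ m) := mul_le_mul_of_nonneg_right h1 hεsm
            _ = Cs * (lam ^ 3 + 2) * ε * s ^ m := by ring
  · intro η A hη hsupp hb
    have hck := t5_ckb N.u x hl0 hl hlam1 hs hη hb
    have hA0 : 0 ≤ A := by
      have := hb 0 (by norm_num) x
      simp only [pow_zero, one_mul] at this
      exact (norm_nonneg _).trans this
    have hts : tsupport (η ∘ bpt N.u x l) ⊆ ball (0 : E m) ((1 + c') / 2 * 1) := by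
      have hcl : IsClosed (bpt N.u x l ⁻¹' tsupport η) :=
        (isClosed_tsupport η).preimage (t5_continuous_bpt N.u x l)
      have h1 : tsupport (η ∘ bpt N.u x l) ⊆ bpt N.u x l ⁻¹' tsupport η :=
        closure_minimal (fun p hp => subset_tsupport η hp) hcl
      intro p hp
      have h2 := hsupp (h1 hp)
      rw [mem_ball, dist_eq_norm] at h2
      have h3 := hmid _ h2
      rw [t5_bco_bpt N.u x hl0] at h3
      simpa using h3
    have hvan : ∀ p, p ∉ ball (0 : E m) c' → (η ∘ bpt N.u x l) p = 0 := by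
      intro p hp
      by_contra h0
      exact hp (ball_subset_ball hmc (hts (subset_tsupport _ h0)))
    have hmeas : Measurable (η ∘ bpt N.u x l) :=
      (hη.continuous.comp (t5_continuous_bpt N.u x l)).measurable
    have hany := t5_intM_any Hi N x l c' Cg (hcell.mono hεi' hhi') hc'c _ hmeas hvan q
    have hcomp : (η ∘ bpt N.u x l) ∘ bco N.u x l = η := by
      funext y
      simp only [Function.comp_apply]
      rw [t5_bpt_bco N.u x hl0]
    rw [hcomp] at hany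
    have h2 := k2 _ _ hck hts
    rw [hany, abs_mul, abs_of_pos (inv_pos.2 hHl)] at h2
    have h3 : (((N.sysOf x l c' Cg).Dm + (N.sysOf x l c' Cg).Lm) (ball (0 : E m) (c' * 1))).toReal
        ≤ (haarC m * l ^ m)⁻¹ * (ε * s ^ m) := by
      apply ENNReal.toReal_le_of_le_ofReal (by positivity)
      have e : ENNReal.ofReal ((haarC m * l ^ m)⁻¹ * (ε * s ^ m))
          = (ENNReal.ofReal (haarC m * l ^ m))⁻¹ * ENNReal.ofReal (ε * s ^ m) := by
        rw [ENNReal.ofReal_mul (inv_pos.2 hHl).le, ENNReal.ofReal_inv_of_pos hHl]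
      rw [e]
      exact hSDL.trans (mul_le_mul_right hDL _)
    have h4 : (haarC m * l ^ m)⁻¹ * |∫ y, η y ∂N.nu - q * ∫ y, η y ∂N.volS|
        ≤ (haarC m * l ^ m)⁻¹ * (Cs * (lam ^ 3 * A) * (ε * s ^ m)) := by
      refine h2.trans ?_
      calc Cs * (lam ^ 3 * A) * (((N.sysOf x l c' Cg).Dm + (N.sysOf x l c' Cg).Lm)
            (ball (0 : E m) (c' * 1))).toReal
          ≤ Cs * (lam ^ 3 * A) * ((haarC m * l ^ m)⁻¹ * (ε * s ^ m)) :=
            mul_le_mul_of_nonneg_left h3 (by positivity)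
        _ = (haarC m * l ^ m)⁻¹ * (Cs * (lam ^ 3 * A) * (ε * s ^ m)) := by ring
    have h5 := le_of_mul_le_mul_left h4 (inv_pos.2 hHl)
    refine h5.trans ?_
    have h6 : Cs * lam ^ 3 ≤ Cs * (lam ^ 3 + 2) := mul_le_mul_of_nonneg_left (by linarith) hCs.le
    calc Cs * (lam ^ 3 * A) * (ε * s ^ m) = Cs * lam ^ 3 * (ε * s ^ m * A) := by ring
      _ ≤ Cs * (lam ^ 3 + 2) * (ε * s ^ m * A) := mul_le_mul_of_nonneg_right h6 (by positivity)
      _ = Cs * (lam ^ 3 + 2) * ε * s ^ m * A := by ring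
  · intro hq
    have h1 : N.Mabs (ball x s) ≤ ENNReal.ofReal Cs * (N.Dm + N.Lm) (ball x (c * s)) := by
      have hsub : ball x s ⊆ bco N.u x l ⁻¹' ball (0 : E m) 1 := by
        intro y hy
        rw [mem_ball, dist_eq_norm] at hy
        simpa using hin y hy
      calc N.Mabs (ball x s) ≤ N.Mabs (bco N.u x l ⁻¹' ball (0 : E m) 1) := measure_mono hsub
        _ ≤ ENNReal.ofReal (haarC m * l ^ m) * (N.sysOf x l c' Cg).absM N.Q (ball (0 : E m) 1) :=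
            t5_outer hcc0 hcct (fun A hA1 hA2 => (HtA A hA1 hA2).2.2.2.2) _
              (ball_subset_ball hc'1.le)
        _ ≤ ENNReal.ofReal (haarC m * l ^ m) * (ENNReal.ofReal Cs *
              ((ENNReal.ofReal (haarC m * l ^ m))⁻¹ * (N.Dm + N.Lm) (ball x (c * s)))) := by
            rw [← hq]
            exact mul_le_mul_right (k3.trans (mul_le_mul_right hSDL _)) _
        _ = ENNReal.ofReal Cs * (N.Dm + N.Lm) (ball x (c * s)) := hcancel _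
    have h2 : N.volS {y | y ∈ ball x s ∧ N.cnt y ≠ N.Q}
        ≤ ENNReal.ofReal Cs * (N.Dm + N.Lm) (ball x (c * s)) := by
      refine (measure_mono ?_).trans K1
      rintro y ⟨hy1, hy2⟩
      refine ⟨ball_subset_ball hsmid hy1, ?_⟩
      rw [hq]
      exact hy2
    calc N.Mabs (ball x s) + N.volS {y | y ∈ ball x s ∧ N.cnt y ≠ N.Q}
        ≤ ENNReal.ofReal Cs * (N.Dm + N.Lm) (ball x (c * s))
          + ENNReal.ofReal Cs * (N.Dm + N.Lm) (ball x (c * s)) := add_le_add h1 h2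
      _ = ENNReal.ofReal (Cs + Cs) * (N.Dm + N.Lm) (ball x (c * s)) := by
          rw [ENNReal.ofReal_add hCs.le hCs.le, add_mul]
      _ ≤ ENNReal.ofReal (Cs * (lam ^ 3 + 2)) * (N.Dm + N.Lm) (ball x (c * s)) := by
          refine mul_le_mul_left (ENNReal.ofReal_le_ofReal ?_) _
          calc Cs + Cs = Cs * 2 := by ring
            _ ≤ Cs * (lam ^ 3 + 2) := mul_le_mul_of_nonneg_left (by linarith) hCs.le

end Claimed.Agent.R322.Tube
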